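import Vale.Agent.P011.H327.Star.Form
import Vale.Agent.P011.H450.R.Ev
import Vale.Agent.P011.H261.Rl.Asm
import Vale.Agent.P011.H525.Lie.Alb

/-!
# The Lie algebra of the closure of the group at an embedding

The images of the elements of the group are in `Lg`, the set `Lg` is closed, and the one-parameter
groups in `Lg` come from `Ll`.
-/

open NormedSpace Filter Topology NumberField
open Vale.Agent.P011.MPQ Vale.Agent.P011.D4 Vale.Agent.P011.D4.Oct

set_option linter.unusedSectionVars false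
set_option maxSynthPendingDepth 3

namespace Vale.Agent.P011.H327.Star

open Vale.Agent.P011.E6 Vale.Agent.P011.E6.Alb Vale.Agent.P011.H261.Rl
open Vale.Agent.P011.E6H
open scoped ComplexConjugate

section evl

variable {F : Type} [Field F] (φ : F →+* ℂ) {a b c : Fˣ}

theorem tf_ev (x y : Alb a b c) : Alb.tf (ev φ x) (ev φ y) = φ (Alb.tf x y) := by
  simp only [Alb.tf, ev, H450.R.bil_evo, map_add, map_mul]

theorem wt_ev (g : Fin 3 → Fˣ) (x : Alb a b c) :
    Alb.wt (fun i => uw φ (g i)) (ev φ x) = ev φ (Alb.wt g x) := by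
  apply Alb.ext
  · simp [Alb.wt, ev]
  · simp [Alb.wt, ev]
  · simp [Alb.wt, ev]
  · simp [Alb.wt, ev, evo_smul]
  · simp [Alb.wt, ev, evo_smul]
  · simp [Alb.wt, ev, evo_smul]

end evl

section place

variable {k E : Type} [Field k] [Field E] [Algebra k E] {ρ σ : E ≃ₐ[k] E} {lam : Eˣ}
  {g : Fin 3 → Eˣ} {φ : E →+* ℂ} {a b c : kˣ}

theorem cj_ev_inert (h : InertE σ φ) (x : AlbL E a b c) : cj (ev φ x) = ev φ (amap σ x) := by
  have hq : ∀ {a b : kˣ} (x : Qt (up E a) (up E b)), cjq (evq φ x) = evq φ (qmap σ x) := by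
    intro a b x
    ext
    · exact (h _).symm
    · exact (h _).symm
    · exact (h _).symm
    · exact (h _).symm
  have ho : ∀ x : OctL E a b c, cjo (evo φ x) = evo φ (omap σ x) := by
    intro x
    ext1
    · exact hq _
    · exact hq _
  apply Alb.ext
  · exact (h _).symm
  · exact (h _).symm
  · exact (h _).symm
  · exact ho _
  · exact ho _
  · exact ho _

theorem cj_ev_real (h : RealE φ) (x : AlbL E a b c) : cj (ev φ x) = ev φ x := by
  have hq : ∀ {a b : kˣ} (x : Qt (up E a) (up E b)), cjq (evq φ x) = evq φ x := by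
    intro a b x
    ext
    · exact h _
    · exact h _
    · exact h _
    · exact h _
  have ho : ∀ x : OctL E a b c, cjo (evo φ x) = evo φ x := by
    intro x
    ext1
    · exact hq _
    · exact hq _
  apply Alb.ext
  · exact h _
  · exact h _
  · exact h _
  · exact ho _
  · exact ho _
  · exact ho _

theorem hC_ev (h : InertE σ φ) (x y : AlbL E a b c) :
    hC (gE φ g) (ev φ x) (ev φ y) = φ (her σ g x y) := by
  rw [hC, cj_ev_inert h, wt_ev, tf_ev]
  rfl

/-- The image of an element of the group is in the group at the embedding. -/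
theorem lc_mem_Lg [CharZero E] (f : G3 ρ σ lam g a b c) : lc φ f.1 ∈ Lg σ g φ a b c := by
  have hF : ∀ x, lc φ f.1 (ev φ x) = ev φ (f.1 x) := loc_ev φ (G3.add f) (G3.smul f)
  refine ⟨H450.R.loc_GN φ (G3.add f) (G3.smul f) (G3.cub f), fun h => ?_, fun h => ?_⟩
  · obtain ⟨T, hT⟩ : ∃ T : RE φ a b c, T = lc φ f.1 := ⟨_, rfl⟩
    rw [← hT] at hF ⊢
    have h1 : ∀ (y : AlbL E a b c) (x), hC (gE φ g) (T x) (T (ev φ y)) =
        hC (gE φ g) x (ev φ y) := by
      intro y x
      have e := ext_ev φ (W := ℂ)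
        (f := ⟨⟨fun x => hC (gE φ g) (T x) (T (ev φ y)), fun x x' => by
          rw [map_add, hC_add_left]⟩, fun t x => by
          change hC (gE φ g) (T (t • x)) (T (ev φ y)) = t * _
          rw [map_smul, hC_smul_left]⟩)
        (g := ⟨⟨fun x => hC (gE φ g) x (ev φ y), fun x x' => hC_add_left _ _ _ _⟩,
          fun t x => hC_smul_left _ _ _ _⟩) (fun x => by
          change hC (gE φ g) (T (ev φ x)) (T (ev φ y)) = hC (gE φ g) (ev φ x) (ev φ y)
          rw [hF, hF, hC_ev h, hC_ev h, G3.her f])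
      exact congrArg (fun l : _ →ₗ[ℂ] ℂ => l x) e
    intro x y
    have e := ext_ev φ (W := ℂ)
      (f := ⟨⟨fun y => conj (hC (gE φ g) (T x) (T y)), fun y y' => by
        rw [map_add, hC_add_right, map_add]⟩, fun t y => by
        change conj (hC (gE φ g) (T x) (T (t • y))) = t * _
        rw [map_smul, hC_smul_right, map_mul, Complex.conj_conj]⟩)
      (g := ⟨⟨fun y => conj (hC (gE φ g) x y), fun y y' => by
        rw [hC_add_right, map_add]⟩, fun t y => by
        change conj (hC (gE φ g) x (t • y)) = t * _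
        rw [hC_smul_right, map_mul, Complex.conj_conj]⟩) (fun y => by
        change conj (hC (gE φ g) (T x) (T (ev φ y))) = conj (hC (gE φ g) x (ev φ y))
        rw [h1])
    have e2 := congrArg (fun l : _ →ₗ[ℂ] ℂ => l y) e
    have e3 := congrArg conj e2
    change conj (conj (hC (gE φ g) (T x) (T y))) = conj (conj (hC (gE φ g) x y)) at e3
    rwa [Complex.conj_conj, Complex.conj_conj] at e3
  · obtain ⟨T, hT⟩ : ∃ T : RE φ a b c, T = lc φ f.1 := ⟨_, rfl⟩
    rw [← hT] at hF ⊢
    intro x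
    have e := ext_ev φ (f := T.toLinearMap)
      (g := ⟨⟨fun x => cj (T (cj x)), fun x x' => by
        rw [cj_add', map_add, cj_add']⟩, fun t x => by
        change cj (T (cj (t • x))) = t • _
        rw [cj_smul', map_smul, cj_smul', Complex.conj_conj]⟩) (fun x => by
        change T (ev φ x) = cj (T (cj (ev φ x)))
        rw [cj_ev_real h, hF, cj_ev_real h])
    have e2 := congrArg (fun l : _ →ₗ[ℂ] _ => l (cj x)) e
    change T (cj x) = cj (T (cj (cj x))) at e2
    rwa [cj_cj'] at e2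

end place

section closed

variable {a b c : ℂˣ}

theorem cont_apply (x : Alb a b c) : Continuous fun f : R a b c => f x :=
  (ContinuousLinearMap.apply ℂ (Alb a b c) x).continuous

instance : FiniteDimensional ℝ (Alb a b c) := FiniteDimensional.complexToReal _

theorem isClosed_GN : IsClosed (GN a b c) := by
  obtain ⟨M, hM⟩ := H525.Lie.exists_tri (V := Alb a b c) (W := ℂ) H525.Lie.N3
    (fun y z => (H525.Lie.tri_N3.1 y z).isLinearMap)
    (fun y z => (H525.Lie.tri_N3.2.1 y z).isLinearMap)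
    (fun y z => (H525.Lie.tri_N3.2.2 y z).isLinearMap)
  have h1 : GN a b c = ⋂ x : Alb a b c, ⋂ y : Alb a b c, ⋂ z : Alb a b c,
      {f : R a b c | M (f x) (f y) (f z) = M x y z} := by
    ext f
    simp only [Set.mem_iInter, Set.mem_ofPred_eq]
    constructor
    · intro hf x y z
      rw [hM, hM]
      exact H525.Lie.N3_map hf x y z
    · intro hf
      refine H525.Lie.mem_GN fun x y z => ?_
      rw [← hM, ← hM]
      exact hf x y z
  rw [h1]
  refine isClosed_iInter fun x => isClosed_iInter fun y => isClosed_iInter fun z => ?_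
  refine isClosed_eq ?_ continuous_const
  exact ((M.continuous.comp (cont_apply x)).clm_apply (cont_apply y)).clm_apply (cont_apply z)

theorem isClosed_UH (g : Fin 3 → ℂˣ) : IsClosed (UH g a b c) := by
  obtain ⟨M, hM⟩ := H525.Lie.exists_bil (V := Alb a b c) (W := ℂ) (hC g)
    (fun y => ((H525.Lie.bil_hC g).1 y).isLinearMap)
    (fun y => ((H525.Lie.bil_hC g).2 y).isLinearMap)
  have h1 : UH g a b c = ⋂ x : Alb a b c, ⋂ y : Alb a b c,
      {f : R a b c | M (f x) (f y) = M x y} := by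
    ext f
    simp only [Set.mem_iInter, Set.mem_ofPred_eq, hM]
    exact Iff.rfl
  rw [h1]
  refine isClosed_iInter fun x => isClosed_iInter fun y => ?_
  refine isClosed_eq ?_ continuous_const
  exact (M.continuous.comp (cont_apply x)).clm_apply (cont_apply y)

theorem isClosed_CJ : IsClosed (CJ a b c) := by
  have h0 : Continuous (cj : Alb a b c → Alb a b c) :=
    LinearMap.continuous_of_finiteDimensional (H525.Lie.rmap_cj.isLinearMap).mk'
  have h1 : CJ a b c = ⋂ x : Alb a b c, {f : R a b c | f (cj x) = cj (f x)} := by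
    ext f
    simp only [Set.mem_iInter, Set.mem_ofPred_eq]
    exact Iff.rfl
  rw [h1]
  exact isClosed_iInter fun x => isClosed_eq (cont_apply _) (h0.comp (cont_apply x))

end closed

section lim

variable {k E : Type} [Field k] [Field E] [Algebra k E] {ρ σ : E ≃ₐ[k] E} {lam : Eˣ}
  {g : Fin 3 → Eˣ} {φ : E →+* ℂ} {a b c : kˣ}

theorem isClosed_Lg : IsClosed (Lg σ g φ a b c) := by
  have h1 : Lg σ g φ a b c = GN _ _ _ ∩ {f | InertE σ φ → f ∈ UH (gE φ g) _ _ _} ∩
      {f | RealE φ → f ∈ CJ _ _ _} := by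
    ext f
    exact ⟨fun h => ⟨⟨h.1, h.2.1⟩, h.2.2⟩, fun h => ⟨h.1.1, h.1.2, h.2⟩⟩
  rw [h1]
  refine (isClosed_GN.inter ?_).inter ?_
  · by_cases h : InertE σ φ
    · convert isClosed_UH (gE φ g) using 1
      ext f
      exact ⟨fun h1 => h1 h, fun h1 _ => h1⟩
    · convert isClosed_univ using 1
      ext f
      exact ⟨fun _ => trivial, fun _ h1 => absurd h1 h⟩
  · by_cases h : RealE φ
    · convert isClosed_CJ using 1
      ext f
      exact ⟨fun h1 => h1 h, fun h1 _ => h1⟩
    · convert isClosed_univ using 1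
      ext f
      exact ⟨fun _ => trivial, fun _ h1 => absurd h1 h⟩

/-- The closure of the image of the group is in the group at the embedding. -/
theorem closure_le_Lg [CharZero E] :
    closure {x : RE φ a b c | ∃ f ∈ G3 ρ σ lam g a b c, x = lc φ f} ⊆ Lg σ g φ a b c := by
  refine closure_minimal ?_ isClosed_Lg
  rintro x ⟨f, hf, rfl⟩
  exact lc_mem_Lg ⟨f, hf⟩

theorem smul_mem_Ll {X : RE φ a b c} (hX : X ∈ Ll σ g φ a b c) (t : ℝ) :
    t • X ∈ Ll σ g φ a b c := by
  refine ⟨fun x => ?_, fun h x y => ?_, fun h x => ?_⟩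
  · change Alb.tf ((t : ℂ) • X x) (Alb.adj x) = 0
    have h1 : Alb.tf (X x) (Alb.adj x) = 0 := hX.1 x
    rw [tf_smul_left, h1, mul_zero]
  · change hC (gE φ g) ((t : ℂ) • X x) y + hC (gE φ g) x ((t : ℂ) • X y) = 0
    have h1 : hC (gE φ g) (X x) y + hC (gE φ g) x (X y) = 0 := hX.2.1 h x y
    rw [hC_smul_left, hC_smul_right, Complex.conj_ofReal, ← mul_add, h1, mul_zero]
  · change (t : ℂ) • X (cj x) = cj ((t : ℂ) • X x)
    have h1 : X (cj x) = cj (X x) := hX.2.2 h x
    rw [h1, cj_smul', Complex.conj_ofReal]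

/-- **The one-parameter groups in the group at the embedding come from the Lie algebra.** -/
theorem mem_Ll_of_exp {X : RE φ a b c} (hX : ∀ t : ℝ, exp (t • X) ∈ Lg σ g φ a b c) :
    X ∈ Ll σ g φ a b c := by
  have h1 : Tendsto (fun n : ℕ => (n : ℝ)⁻¹ • X) atTop (𝓝 0) := by
    have h2 : Tendsto (fun n : ℕ => (n : ℝ)⁻¹) atTop (𝓝 0) := tendsto_inv_atTop_nhds_zero_nat
    have h3 := h2.smul_const X
    rwa [zero_smul] at h3
  have h2 : Tendsto (fun n : ℕ => exp ((n : ℝ)⁻¹ • X)) atTop (𝓝 1) := by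
    let _ : NormedAlgebra ℚ (RE φ a b c) := NormedAlgebra.restrictScalars ℚ ℝ _
    have h3 := (exp_continuous (𝔸 := RE φ a b c)).tendsto 0
    rw [exp_zero] at h3
    exact h3.comp h1
  have h3 : ∀ᶠ n : ℕ in atTop, ‖(n : ℝ)⁻¹ • X‖ ≤ 1 / 4 := by
    have := h1.norm
    rw [_root_.norm_zero] at this
    exact this.eventually (ge_mem_nhds (by norm_num))
  have h4 : ∀ᶠ n : ℕ in atTop, ‖exp ((n : ℝ)⁻¹ • X) - 1‖ ≤ 1 / 16 := by
    have := (h2.sub_const 1).norm
    rw [sub_self, _root_.norm_zero] at this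
    exact this.eventually (ge_mem_nhds (by norm_num))
  obtain ⟨n, ⟨h5, h6⟩, h7⟩ := ((h3.and h4).and (eventually_gt_atTop 0)).exists
  obtain ⟨Y, hY, h8, h9⟩ := H525.Lie.exists_log_Lg (hX _) h6
  have h10 : Y = (n : ℝ)⁻¹ • X :=
    H525.Lie.exp_inj (h9.trans (by linarith)) h5 h8
  have h11 := smul_mem_Ll hY (n : ℝ)
  rw [h10, smul_smul, mul_inv_cancel₀ (by positivity), one_smul] at h11
  exact h11

/-- The one-parameter groups in the closure of the image of the group. -/
theorem mem_Ll_of_closure [CharZero E] {X : RE φ a b c} (hX : ∀ t : ℝ, exp (t • X) ∈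
    closure {x : RE φ a b c | ∃ f ∈ G3 ρ σ lam g a b c, x = lc φ f}) :
    X ∈ Ll σ g φ a b c :=
  mem_Ll_of_exp fun t => closure_le_Lg (hX t)

/-- The one-parameter groups in the closure of the image of a subgroup, at each place. -/
theorem mem_Ll_of_lieOf [CharZero E] {S : Type} {φ : S → E →+* ℂ}
    {N : Subgroup (G3 ρ σ lam g a b c)} {X : ∀ v : S, RE (φ v) a b c} [Fintype S]
    (hX : X ∈ lieOf (Lcl φ N)) (v : S) : X v ∈ Ll σ g (φ v) a b c := by
  refine mem_Ll_of_exp fun t => ?_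
  have h1 : Lcl φ N ⊆ {x | x v ∈ Lg σ g (φ v) a b c} := by
    refine closure_minimal ?_ (isClosed_Lg.preimage (continuous_apply v))
    rintro x ⟨n, -, hx⟩
    change x v ∈ Lg σ g (φ v) a b c
    rw [hx]
    exact lc_mem_Lg n
  have h2 := h1 (hX t)
  change (exp (t • X)) v ∈ Lg σ g (φ v) a b c at h2
  let _ : ∀ i : S, NormedAlgebra ℚ (RE (φ i) a b c) :=
    fun i => NormedAlgebra.restrictScalars ℚ ℝ (RE (φ i) a b c)
  rw [Pi.coe_exp] at h2
  exact h2

/-- **The Lie algebra at a place is in the closure of the image of a subgroup** if the complex span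
of a set of one-parameter groups at the place contains the root operators of pure octonions. -/
theorem ll_of_gen [CharZero E] {S : Type} [Fintype S] [DecidableEq S] (φ : S → E →+* ℂ)
    (N : Subgroup (G3 ρ σ lam g a b c)) (v : S) (G0 : Set (RE (φ v) a b c))
    (hG : ∀ X ∈ G0, (Pi.single v X : ∀ v : S, RE (φ v) a b c) ∈ lieOf (Lcl φ N))
    (hC : ¬ InertE σ (φ v) → ¬ RealE (φ v) → ∀ X ∈ G0,
      (Pi.single v (Complex.I • X) : ∀ v : S, RE (φ v) a b c) ∈ lieOf (Lcl φ N))
    (hq : ∀ q : Oct (uw (φ v) (up E a)) (uw (φ v) (up E b)) (uw (φ v) (up E c)), bil q 1 = 0 →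
      LinearMap.toContinuousLinearMap (H261.Rl.P1 q) ∈ Submodule.span ℂ G0 ∧
      LinearMap.toContinuousLinearMap (H261.Rl.P2 q) ∈ Submodule.span ℂ G0 ∧
      LinearMap.toContinuousLinearMap (H261.Rl.P3 q) ∈ Submodule.span ℂ G0 ∧
      LinearMap.toContinuousLinearMap (H261.Rl.M1 q) ∈ Submodule.span ℂ G0 ∧
      LinearMap.toContinuousLinearMap (H261.Rl.M2 q) ∈ Submodule.span ℂ G0 ∧
      LinearMap.toContinuousLinearMap (H261.Rl.M3 q) ∈ Submodule.span ℂ G0) :
    ∀ X ∈ Ll σ g (φ v) a b c,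
      (Pi.single v X : ∀ v : S, RE (φ v) a b c) ∈ lieOf (Lcl φ N) := by
  have : Nonempty S := ⟨v⟩
  have hM : ∀ X : RE (φ v) a b c,
      (Pi.single v X : ∀ v : S, RE (φ v) a b c) ∈ lieOf (Lcl φ N) → X ∈ Ll σ g (φ v) a b c := by
    intro X hX
    have h1 := mem_Ll_of_lieOf hX v
    rwa [Pi.single_eq_same] at h1
  refine form ((lieSub (Lcl φ N) (one_mem_Lcl φ N) (mul_mem_Lcl φ N) isClosed_closure).comap
    (LinearMap.single ℝ (fun v : S => RE (φ v) a b c) v)) ?_ (fun h X hX => (hM X hX).2.1 h)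
    (fun h X hX => (hM X hX).2.2 h) G0 hG hC hq
  intro X hX Y hY
  change (Pi.single v (X * Y - Y * X) : ∀ v : S, RE (φ v) a b c) ∈ lieOf (Lcl φ N)
  have h1 := bracket_mem_lieOf (one_mem_Lcl φ N) (mul_mem_Lcl φ N) isClosed_closure
    (X := (Pi.single v X : ∀ v : S, RE (φ v) a b c))
    (Y := (Pi.single v Y : ∀ v : S, RE (φ v) a b c)) hX hY
  rwa [← Pi.single_mul, ← Pi.single_mul, ← Pi.single_sub] at h1

end lim

end Vale.Agent.P011.H327.Star
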