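import Vale.Agent.P011.H327.Star.Main
import Vale.Agent.P011.H261.Rl.Elem

/-!
# The Lie algebra of the cubic norm, in the letters of `H261.Rl`
-/

open Vale.Agent.P011.MPQ Vale.Agent.P011.D4 Vale.Agent.P011.D4.Oct

namespace Vale.Agent.P011.H327.Star

open Vale.Agent.P011.E6 Vale.Agent.P011.E6.Alb

variable {F : Type} [Field F] {a b c : Fˣ}

theorem P1_eq (q : Oct a b c) : H261.Rl.P1 q = P1 q := rfl
theorem P2_eq (q : Oct a b c) : H261.Rl.P2 q = P2 q := rfl
theorem P3_eq (q : Oct a b c) : H261.Rl.P3 q = P3 q := rfl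

theorem M1_eq (q : Oct a b c) : H261.Rl.M1 q = M1 q := by
  refine LinearMap.ext fun x => ?_
  change (⟨0, 0, bil q (star x.x1), x.d2 • star q, q * star x.x3, 0⟩ : Alb a b c) =
    ⟨0, 0, bil (star q) x.x1, x.d2 • star q, q * star x.x3, 0⟩
  rw [bil_star_left]

theorem M2_eq (q : Oct a b c) : H261.Rl.M2 q = M2 q := by
  refine LinearMap.ext fun x => ?_
  change (⟨bil q (star x.x2), 0, 0, 0, x.d3 • star q, q * star x.x1⟩ : Alb a b c) =
    ⟨bil (star q) x.x2, 0, 0, 0, x.d3 • star q, q * star x.x1⟩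
  rw [bil_star_left]

theorem M3_eq (q : Oct a b c) : H261.Rl.M3 q = M3 q := by
  refine LinearMap.ext fun x => ?_
  change (⟨0, bil q (star x.x3), 0, q * star x.x2, 0, x.d1 • star q⟩ : Alb a b c) =
    ⟨0, bil (star q) x.x3, 0, q * star x.x2, 0, x.d1 • star q⟩
  rw [bil_star_left]

/-- **(STAR)** The derivations of the cubic norm are in the Lie algebra generated by the
derivations attached to the elementary matrices with pure octonion coefficients. -/
theorem star (h2 : (2 : F) ≠ 0) (M : Submodule F (Module.End F (Alb a b c)))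
    (hM : ∀ X ∈ M, ∀ Y ∈ M, X * Y - Y * X ∈ M)
    (hq : ∀ q : Oct a b c, bil q 1 = 0 → H261.Rl.P1 q ∈ M ∧ H261.Rl.P2 q ∈ M ∧
      H261.Rl.P3 q ∈ M ∧ H261.Rl.M1 q ∈ M ∧ H261.Rl.M2 q ∈ M ∧ H261.Rl.M3 q ∈ M)
    (X : Module.End F (Alb a b c)) (hX : ∀ x, tf (X x) (adj x) = 0) : X ∈ M := by
  have : NeZero (2 : F) := ⟨h2⟩
  refine star_main hM (fun q h => ?_) fun x => by rw [tf_comm]; exact hX x
  have h1 := hq q h
  rw [P1_eq, P2_eq, P3_eq, M1_eq, M2_eq, M3_eq] at h1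
  exact h1

end Vale.Agent.P011.H327.Star
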