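import Vale.Agent.P011.H327.Star.Fin
import Vale.Agent.P011.H261.Rl.Spec

/-!
# Real forms: the Lie algebras at an embedding from (STAR)
-/

open NormedSpace Filter Topology NumberField
open Vale.Agent.P011.MPQ Vale.Agent.P011.D4 Vale.Agent.P011.D4.Oct

set_option linter.unusedSectionVars false

namespace Vale.Agent.P011.H327.Star

open Vale.Agent.P011.E6 Vale.Agent.P011.E6.Alb Vale.Agent.P011.H261.Rl
open scoped ComplexConjugate

section cx

variable {a b c : ℂˣ}

theorem cjq_add (x y : Qt a b) : cjq (x + y) = cjq x + cjq y := by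
  ext <;> simp [cjq]

theorem cjq_smul (z : ℂ) (x : Qt a b) : cjq (z • x) = conj z • cjq x := by
  ext <;> simp [cjq]

theorem cjo_add' (x y : Oct a b c) : cjo (x + y) = cjo x + cjo y := by
  ext1
  · exact cjq_add _ _
  · exact cjq_add _ _

theorem cjo_smul' (z : ℂ) (x : Oct a b c) : cjo (z • x) = conj z • cjo x := by
  ext1
  · exact cjq_smul _ _
  · exact cjq_smul _ _

theorem cj_add' (x y : Alb a b c) : cj (x + y) = cj x + cj y := by
  apply Alb.ext
  · exact map_add _ _ _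
  · exact map_add _ _ _
  · exact map_add _ _ _
  · exact cjo_add' _ _
  · exact cjo_add' _ _
  · exact cjo_add' _ _

theorem cj_smul' (z : ℂ) (x : Alb a b c) : cj (z • x) = conj z • cj x := by
  apply Alb.ext
  · exact map_mul _ _ _
  · exact map_mul _ _ _
  · exact map_mul _ _ _
  · exact cjo_smul' _ _
  · exact cjo_smul' _ _
  · exact cjo_smul' _ _

theorem cj_cj' (x : Alb a b c) : cj (cj x) = x := by
  have hq : ∀ {a b : ℂˣ} (x : Qt a b), cjq (cjq x) = x := by
    intro a b x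
    ext <;> simp [cjq]
  have ho : ∀ x : Oct a b c, cjo (cjo x) = x := by
    intro x
    ext1
    · exact hq _
    · exact hq _
  apply Alb.ext
  · exact Complex.conj_conj _
  · exact Complex.conj_conj _
  · exact Complex.conj_conj _
  · exact ho _
  · exact ho _
  · exact ho _

theorem hC_add_left (g : Fin 3 → ℂˣ) (x y z : Alb a b c) : hC g (x + y) z = hC g x z + hC g y z := by
  have h : Alb.wt g (x + y) = Alb.wt g x + Alb.wt g y := by
    apply Alb.ext <;> simp [Alb.wt, mul_add]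
  rw [hC, h, tf_add_left]
  rfl

theorem hC_smul_left (g : Fin 3 → ℂˣ) (t : ℂ) (x z : Alb a b c) :
    hC g (t • x) z = t * hC g x z := by
  have h : Alb.wt g (t • x) = t • Alb.wt g x := by
    apply Alb.ext
    · simp [Alb.wt]; ring
    · simp [Alb.wt]; ring
    · simp [Alb.wt]; ring
    · simp [Alb.wt, smul_smul]; ring_nf
    · simp [Alb.wt, smul_smul]; ring_nf
    · simp [Alb.wt, smul_smul]; ring_nf
  rw [hC, h, tf_smul_left]
  rfl

theorem hC_add_right (g : Fin 3 → ℂˣ) (x y z : Alb a b c) :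
    hC g x (y + z) = hC g x y + hC g x z := by
  rw [hC, cj_add', tf_add_right]
  rfl

theorem hC_smul_right (g : Fin 3 → ℂˣ) (t : ℂ) (x z : Alb a b c) :
    hC g x (t • z) = conj t * hC g x z := by
  rw [hC, cj_smul', tf_smul_right]
  rfl

theorem eq_zero_of_hC (g : Fin 3 → ℂˣ) {x : Alb a b c} (h : ∀ y, hC g x y = 0) : x = 0 := by
  have h1 : Alb.wt g x = 0 := eq_zero_of_tf fun z => by
    have h2 := h (cj z)
    rwa [hC, cj_cj'] at h2
  have g0 : ∀ i, ((g i : ℂˣ) : ℂ) ≠ 0 := fun i => (g i).ne_zero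
  have e1 := congrArg Alb.d1 h1
  have e2 := congrArg Alb.d2 h1
  have e3 := congrArg Alb.d3 h1
  have e4 := congrArg Alb.x1 h1
  have e5 := congrArg Alb.x2 h1
  have e6 := congrArg Alb.x3 h1
  simp only [Alb.wt, d1_zero, d2_zero, d3_zero, x1_zero, x2_zero, x3_zero, mul_eq_zero,
    pow_eq_zero_iff two_ne_zero, g0, false_or, smul_eq_zero, or_self] at e1 e2 e3 e4 e5 e6
  exact Alb.ext e1 e2 e3 e4 e5 e6

/-- `M` is a real space of operators closed under brackets. -/
structure RLie (M : Set (R a b c)) : Prop where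
  zero : (0 : R a b c) ∈ M
  add : ∀ X ∈ M, ∀ Y ∈ M, X + Y ∈ M
  smul : ∀ t : ℝ, ∀ X ∈ M, (t : ℂ) • X ∈ M
  brk : ∀ X ∈ M, ∀ Y ∈ M, X * Y - Y * X ∈ M

theorem rlie_of (M : Submodule ℝ (R a b c)) (hbr : ∀ X ∈ M, ∀ Y ∈ M, X * Y - Y * X ∈ M) :
    RLie (M : Set (R a b c)) where
  zero := M.zero_mem
  add _ hX _ hY := M.add_mem hX hY
  smul t _ hX := M.smul_mem t hX
  brk := hbr

variable {M : Set (R a b c)}

theorem RLie.neg (h : RLie M) {X : R a b c} (hX : X ∈ M) : -X ∈ M := by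
  have h1 := h.smul (-1) X hX
  have h2 : ((-1 : ℝ) : ℂ) • X = -X := by
    refine ContinuousLinearMap.ext fun x => ?_
    change ((-1 : ℝ) : ℂ) • X x = -X x
    rw [Complex.ofReal_neg, Complex.ofReal_one, neg_one_smul]
  rwa [h2] at h1

theorem RLie.sub (h : RLie M) {X Y : R a b c} (hX : X ∈ M) (hY : Y ∈ M) : X - Y ∈ M := by
  rw [sub_eq_add_neg]
  exact h.add _ hX _ (h.neg hY)

theorem cx_smul (x y : ℂ) (u v : Alb a b c) : (x + y * Complex.I) • (u + Complex.I • v) =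
    (x • u - y • v) + Complex.I • (y • u + x • v) := by
  match_scalars
  · ring
  · linear_combination y * Complex.I_mul_I

/-- The complex span of a real space of operators. -/
def cx (h : RLie M) : Submodule ℂ (Module.End ℂ (Alb a b c)) where
  carrier := {X | ∃ A ∈ M, ∃ B ∈ M, ∀ x, X x = A x + Complex.I • B x}
  add_mem' := by
    rintro X Y ⟨A, hA, B, hB, h1⟩ ⟨A', hA', B', hB', h2⟩
    refine ⟨A + A', h.add _ hA _ hA', B + B', h.add _ hB _ hB', fun x => ?_⟩
    change X x + Y x = (A x + A' x) + Complex.I • (B x + B' x)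
    rw [h1, h2, smul_add]
    abel
  zero_mem' := ⟨0, h.zero, 0, h.zero, fun x => by
    change (0 : Alb a b c) = 0 + Complex.I • (0 : Alb a b c)
    rw [smul_zero, add_zero]⟩
  smul_mem' := by
    rintro z X ⟨A, hA, B, hB, h1⟩
    refine ⟨(z.re : ℂ) • A - (z.im : ℂ) • B, h.sub (h.smul _ _ hA) (h.smul _ _ hB),
      (z.im : ℂ) • A + (z.re : ℂ) • B, h.add _ (h.smul _ _ hA) _ (h.smul _ _ hB), fun x => ?_⟩
    change z • X x = ((z.re : ℂ) • A x - (z.im : ℂ) • B x) +
      Complex.I • ((z.im : ℂ) • A x + (z.re : ℂ) • B x)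
    rw [h1]
    have h2 := cx_smul (z.re : ℂ) (z.im : ℂ) (A x) (B x)
    rwa [Complex.re_add_im] at h2

theorem mem_cx (h : RLie M) {X : Module.End ℂ (Alb a b c)} :
    X ∈ cx h ↔ ∃ A ∈ M, ∃ B ∈ M, ∀ x, X x = A x + Complex.I • B x := Iff.rfl

theorem cx_brk (h : RLie M) : ∀ X ∈ cx h, ∀ Y ∈ cx h, X * Y - Y * X ∈ cx h := by
  rintro X ⟨A, hA, B, hB, h1⟩ Y ⟨A', hA', B', hB', h2⟩
  refine ⟨(A * A' - A' * A) - (B * B' - B' * B), h.sub (h.brk _ hA _ hA') (h.brk _ hB _ hB'),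
    (A * B' - B' * A) + (B * A' - A' * B), h.add _ (h.brk _ hA _ hB') _ (h.brk _ hB _ hA'),
    fun x => ?_⟩
  change X (Y x) - Y (X x) = ((A (A' x) - A' (A x)) - (B (B' x) - B' (B x))) +
    Complex.I • ((A (B' x) - B' (A x)) + (B (A' x) - A' (B x)))
  have h3 : ∀ (Z : R a b c) (u v : Alb a b c), Z (u + Complex.I • v) = Z u + Complex.I • Z v := by
    intro Z u v
    rw [map_add, map_smul]
  have h4 : ∀ v : Alb a b c, Complex.I • Complex.I • v = -v := by
    intro v
    rw [smul_smul, Complex.I_mul_I, neg_one_smul]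
  rw [h1 (Y x), h2 (X x), h1 x, h2 x, h3, h3, h3, h3]
  simp only [smul_add, smul_sub, h4]
  abel

/-- The complex subspace of a real space of operators. -/
def ci (h : RLie M) : Submodule ℂ (Module.End ℂ (Alb a b c)) where
  carrier := {X | (∃ A ∈ M, ∀ x, X x = A x) ∧ ∃ B ∈ M, ∀ x, Complex.I • X x = B x}
  add_mem' := by
    rintro X Y ⟨⟨A, hA, h1⟩, B, hB, h2⟩ ⟨⟨A', hA', h1'⟩, B', hB', h2'⟩
    refine ⟨⟨A + A', h.add _ hA _ hA', fun x => ?_⟩, B + B', h.add _ hB _ hB', fun x => ?_⟩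
    · change X x + Y x = A x + A' x
      rw [h1, h1']
    · change Complex.I • (X x + Y x) = B x + B' x
      rw [smul_add, h2, h2']
  zero_mem' := ⟨⟨0, h.zero, fun x => rfl⟩, 0, h.zero, fun x => by
    change Complex.I • (0 : Alb a b c) = 0
    rw [smul_zero]⟩
  smul_mem' := by
    rintro z X ⟨⟨A, hA, h1⟩, B, hB, h2⟩
    refine ⟨⟨(z.re : ℂ) • A + (z.im : ℂ) • B, h.add _ (h.smul _ _ hA) _ (h.smul _ _ hB),
      fun x => ?_⟩, (z.re : ℂ) • B - (z.im : ℂ) • A, h.sub (h.smul _ _ hB) (h.smul _ _ hA),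
      fun x => ?_⟩
    · change z • X x = (z.re : ℂ) • A x + (z.im : ℂ) • B x
      rw [← h1, ← h2, smul_smul, ← add_smul, Complex.re_add_im]
    · change Complex.I • z • X x = (z.re : ℂ) • B x - (z.im : ℂ) • A x
      rw [← h1, ← h2, smul_smul, smul_smul, ← sub_smul]
      congr 1
      conv_lhs => rw [← Complex.re_add_im z]
      linear_combination (z.im : ℂ) * Complex.I_mul_I

theorem ci_brk (h : RLie M) : ∀ X ∈ ci h, ∀ Y ∈ ci h, X * Y - Y * X ∈ ci h := by
  rintro X ⟨⟨A, hA, h1⟩, B, hB, h2⟩ Y ⟨⟨A', hA', h1'⟩, B', hB', h2'⟩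
  refine ⟨⟨A * A' - A' * A, h.brk _ hA _ hA', fun x => ?_⟩, B * A' - A' * B,
    h.brk _ hB _ hA', fun x => ?_⟩
  · change X (Y x) - Y (X x) = A (A' x) - A' (A x)
    rw [h1, h1', h1', h1]
  · change Complex.I • (X (Y x) - Y (X x)) = B (A' x) - A' (B x)
    rw [smul_sub, h2, h1', ← map_smul, h2, h1']

theorem mem_of_span {V : Submodule ℂ (Module.End ℂ (Alb a b c))} {G0 : Set (R a b c)}
    (hG : ∀ X ∈ G0, X.toLinearMap ∈ V) {X : R a b c} (hX : X ∈ Submodule.span ℂ G0) :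
    X.toLinearMap ∈ V := by
  refine Submodule.span_induction (p := fun X _ => X.toLinearMap ∈ V) ?_ ?_ ?_ ?_ hX
  · exact hG
  · exact V.zero_mem
  · intro X Y _ _ h1 h2
    exact V.add_mem h1 h2
  · intro z X _ h1
    exact V.smul_mem z h1

/-- The six root operators of pure octonions. -/
theorem star_span {V : Submodule ℂ (Module.End ℂ (Alb a b c))}
    (hV : ∀ X ∈ V, ∀ Y ∈ V, X * Y - Y * X ∈ V) {G0 : Set (R a b c)}
    (hG : ∀ X ∈ G0, X.toLinearMap ∈ V)
    (hq : ∀ q : Oct a b c, bil q 1 = 0 →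
      LinearMap.toContinuousLinearMap (H261.Rl.P1 q) ∈ Submodule.span ℂ G0 ∧
      LinearMap.toContinuousLinearMap (H261.Rl.P2 q) ∈ Submodule.span ℂ G0 ∧
      LinearMap.toContinuousLinearMap (H261.Rl.P3 q) ∈ Submodule.span ℂ G0 ∧
      LinearMap.toContinuousLinearMap (H261.Rl.M1 q) ∈ Submodule.span ℂ G0 ∧
      LinearMap.toContinuousLinearMap (H261.Rl.M2 q) ∈ Submodule.span ℂ G0 ∧
      LinearMap.toContinuousLinearMap (H261.Rl.M3 q) ∈ Submodule.span ℂ G0)
    {X : R a b c} (hX : X ∈ LN a b c) : X.toLinearMap ∈ V := by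
  refine star two_ne_zero V hV (fun q h => ?_) X.toLinearMap hX
  obtain ⟨h1, h2, h3, h4, h5, h6⟩ := hq q h
  exact ⟨mem_of_span hG h1, mem_of_span hG h2, mem_of_span hG h3, mem_of_span hG h4,
    mem_of_span hG h5, mem_of_span hG h6⟩

/-- The skew hermitian operators. -/
theorem eq_zero_of_LH {g : Fin 3 → ℂˣ} {A B X : R a b c} (hA : A ∈ LH g a b c)
    (hB : B ∈ LH g a b c) (hX : X ∈ LH g a b c) (h : ∀ x, X x = A x + Complex.I • B x)
    (x : Alb a b c) : B x = 0 := by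
  refine eq_zero_of_hC g fun y => ?_
  have h1 := hX x y
  have h2 := hA x y
  have h3 := hB x y
  rw [h, h, hC_add_left, hC_add_right, hC_smul_left, hC_smul_right, Complex.conj_I] at h1
  have h4 : (2 * Complex.I) * hC g (B x) y = 0 := by
    linear_combination h1 - h2 + Complex.I * h3
  exact (mul_eq_zero.1 h4).resolve_left (mul_ne_zero two_ne_zero Complex.I_ne_zero)

/-- The operators that commute with the conjugation. -/
theorem eq_zero_of_CJ {A B X : R a b c} (hA : A ∈ CJ a b c)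
    (hB : B ∈ CJ a b c) (hX : X ∈ CJ a b c) (h : ∀ x, X x = A x + Complex.I • B x)
    (x : Alb a b c) : B x = 0 := by
  have h1 := hX x
  rw [h, h, cj_add', cj_smul', hA, hB, Complex.conj_I] at h1
  have h2 : (2 * Complex.I) • cj (B x) = 0 := by
    have h3 : Complex.I • cj (B x) = -Complex.I • cj (B x) := add_left_cancel h1
    rw [two_mul, add_smul]
    nth_rewrite 2 [h3]
    rw [← add_smul, add_neg_cancel, zero_smul]
  have h3 := (smul_eq_zero.1 h2).resolve_left (mul_ne_zero two_ne_zero Complex.I_ne_zero)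
  have h4 := congrArg cj h3
  rw [cj_cj'] at h4
  rw [h4]
  apply Alb.ext
  · exact map_zero _
  · exact map_zero _
  · exact map_zero _
  · ext <;> simp [cj, cjo, cjq]
  · ext <;> simp [cj, cjo, cjq]
  · ext <;> simp [cj, cjo, cjq]

end cx

/-- **The Lie algebra at an embedding** is contained in a real space of operators, closed under
brackets, whose complex span contains the root operators of pure octonions. -/
theorem form {k E : Type} [Field k] [Field E] [Algebra k E] {σ : E ≃ₐ[k] E} {g : Fin 3 → Eˣ}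
    {φ : E →+* ℂ} {a b c : kˣ} (M : Submodule ℝ (RE φ a b c))
    (hbr : ∀ X ∈ M, ∀ Y ∈ M, X * Y - Y * X ∈ M)
    (hI : InertE σ φ → ∀ X ∈ M, X ∈ LH (gE φ g) _ _ _)
    (hR : RealE φ → ∀ X ∈ M, X ∈ CJ _ _ _) (G0 : Set (RE φ a b c)) (hG : ∀ X ∈ G0, X ∈ M)
    (hC : ¬ InertE σ φ → ¬ RealE φ → ∀ X ∈ G0, Complex.I • X ∈ M)
    (hq : ∀ q : Oct (uw φ (up E a)) (uw φ (up E b)) (uw φ (up E c)), bil q 1 = 0 →
      LinearMap.toContinuousLinearMap (H261.Rl.P1 q) ∈ Submodule.span ℂ G0 ∧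
      LinearMap.toContinuousLinearMap (H261.Rl.P2 q) ∈ Submodule.span ℂ G0 ∧
      LinearMap.toContinuousLinearMap (H261.Rl.P3 q) ∈ Submodule.span ℂ G0 ∧
      LinearMap.toContinuousLinearMap (H261.Rl.M1 q) ∈ Submodule.span ℂ G0 ∧
      LinearMap.toContinuousLinearMap (H261.Rl.M2 q) ∈ Submodule.span ℂ G0 ∧
      LinearMap.toContinuousLinearMap (H261.Rl.M3 q) ∈ Submodule.span ℂ G0) :
    ∀ X ∈ Ll σ g φ a b c, X ∈ M := by
  rintro X ⟨hN, hH, hJ⟩
  have h := rlie_of M hbr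
  have hG1 : ∀ X ∈ G0, X.toLinearMap ∈ cx h := fun X hX =>
    ⟨X, hG X hX, 0, h.zero, fun x => by
      change X x = X x + Complex.I • (0 : Alb _ _ _)
      rw [smul_zero, add_zero]⟩
  by_cases h1 : InertE σ φ
  · obtain ⟨A, hA, B, hB, h2⟩ := star_span (cx_brk h) hG1 hq hN
    have h3 := eq_zero_of_LH (hI h1 A hA) (hI h1 B hB) (hH h1) h2
    have h4 : X = A := ContinuousLinearMap.ext fun x => by
      have h5 := h2 x
      rw [h3, smul_zero, add_zero] at h5
      exact h5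
    rw [h4]
    exact hA
  by_cases h1' : RealE φ
  · obtain ⟨A, hA, B, hB, h2⟩ := star_span (cx_brk h) hG1 hq hN
    have h3 := eq_zero_of_CJ (hR h1' A hA) (hR h1' B hB) (hJ h1') h2
    have h4 : X = A := ContinuousLinearMap.ext fun x => by
      have h5 := h2 x
      rw [h3, smul_zero, add_zero] at h5
      exact h5
    rw [h4]
    exact hA
  · have hG2 : ∀ X ∈ G0, X.toLinearMap ∈ ci h := fun X hX =>
      ⟨⟨X, hG X hX, fun x => rfl⟩, Complex.I • X, hC h1 h1' X hX, fun x => rfl⟩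
    obtain ⟨⟨A, hA, h2⟩, -⟩ := star_span (ci_brk h) hG2 hq hN
    have h4 : X = A := ContinuousLinearMap.ext h2
    rw [h4]
    exact hA

end Vale.Agent.P011.H327.Star
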