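import Vale.Agent.P011.H327.Star.Red

/-!
# The Lie algebra of the cubic norm is generated by the root operators of the pure octonions
-/

open Vale.Agent.P011.MPQ Vale.Agent.P011.D4 Vale.Agent.P011.D4.Oct

set_option linter.unusedSectionVars false
set_option linter.unusedSimpArgs false

namespace Vale.Agent.P011.H327.Star

open Vale.Agent.P011.E6 Vale.Agent.P011.E6.Alb

variable {F : Type} [Field F] {a b c : Fˣ}

/-- The standard orthogonal basis. -/
def fb (a b c : Fˣ) : Fin 8 → Oct a b c :=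
  ![⟨⟨1, 0, 0, 0⟩, 0⟩, ⟨⟨0, 1, 0, 0⟩, 0⟩, ⟨⟨0, 0, 1, 0⟩, 0⟩, ⟨⟨0, 0, 0, 1⟩, 0⟩,
    ⟨0, ⟨1, 0, 0, 0⟩⟩, ⟨0, ⟨0, 1, 0, 0⟩⟩, ⟨0, ⟨0, 0, 1, 0⟩⟩, ⟨0, ⟨0, 0, 0, 1⟩⟩]

variable [NeZero (2 : F)]

theorem expand (x : Oct a b c) :
    x = ∑ i, ((bil (fb a b c i) (fb a b c i))⁻¹ * bil (fb a b c i) x) • fb a b c i := by
  have h2 : (2 : F) ≠ 0 := NeZero.ne 2
  have ha := a.ne_zero
  have hb := b.ne_zero
  have hc := c.ne_zero
  rw [Fin.sum_univ_eight]
  apply ext8 <;> simp [fb, bil_eq] <;> field_simp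

/-- A skew map is a combination of the maps `u ∧ v`. -/
theorem skew_expand {T : Oct a b c →ₗ[F] Oct a b c}
    (hT : ∀ u v, bil u (T v) + bil v (T u) = 0) (x : Oct a b c) :
    T x = ∑ i, ((2 : F)⁻¹ * (bil (fb a b c i) (fb a b c i))⁻¹) •
      (bil (fb a b c i) x • T (fb a b c i) - bil (T (fb a b c i)) x • fb a b c i) := by
  have h2 : (2 : F) ≠ 0 := NeZero.ne 2
  have h3 : T x = ∑ i, ((bil (fb a b c i) (fb a b c i))⁻¹ * bil (fb a b c i) x) •
      T (fb a b c i) := by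
    conv_lhs => rw [expand x]
    rw [map_sum]
    exact Finset.sum_congr rfl fun i _ => by rw [map_smul]
  have h4 : T x = ∑ i, (-((bil (fb a b c i) (fb a b c i))⁻¹ * bil (T (fb a b c i)) x)) •
      fb a b c i := by
    conv_lhs => rw [expand (T x)]
    refine Finset.sum_congr rfl fun i _ => ?_
    have h5 := hT (fb a b c i) x
    rw [bil_comm x] at h5
    rw [eq_neg_of_add_eq_zero_left h5, mul_neg]
  have h5 : T x = (2 : F)⁻¹ • (T x + T x) := by
    rw [← two_smul F (T x), smul_smul, inv_mul_cancel₀ h2, one_smul]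
  have h6 := congrArg₂ (fun y z : Oct a b c => (2 : F)⁻¹ • (y + z)) h3 h4
  rw [h5, h6, ← Finset.sum_add_distrib, Finset.smul_sum]
  refine Finset.sum_congr rfl fun i _ => ?_
  rw [neg_smul, ← sub_eq_add_neg, smul_sub, smul_sub, smul_smul, smul_smul, smul_smul, smul_smul,
    mul_assoc, mul_assoc]

/-- The `(1,2)`-component. -/
def T3 (X : Module.End F (Alb a b c)) : Oct a b c →ₗ[F] Oct a b c where
  toFun w := (X (o3 w)).x3
  map_add' u v := by
    have h : (o3 (u + v) : Alb a b c) = o3 u + o3 v := by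
      apply Alb.ext <;> simp [o3]
    rw [h, map_add, x3_add]
  map_smul' t u := by
    have h : (o3 (t • u) : Alb a b c) = t • o3 u := by
      apply Alb.ext <;> simp [o3]
    rw [h, map_smul, x3_smul, RingHom.id_apply]

/-- The sum of the brackets which has the given skew `(1,2)`-component. -/
def Sk (T : Oct a b c →ₗ[F] Oct a b c) : Module.End F (Alb a b c) :=
  ∑ i, ((2 : F)⁻¹ * (bil (fb a b c i) (fb a b c i))⁻¹) •
    (P3 (T (fb a b c i)) * M3 (star (fb a b c i)) - M3 (star (fb a b c i)) * P3 (T (fb a b c i)))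

theorem Sk_apply (T : Oct a b c →ₗ[F] Oct a b c) (x : Alb a b c) :
    Sk T x = ∑ i, ((2 : F)⁻¹ * (bil (fb a b c i) (fb a b c i))⁻¹) •
      ((P3 (T (fb a b c i)) * M3 (star (fb a b c i)) -
        M3 (star (fb a b c i)) * P3 (T (fb a b c i))) x) := by
  rw [Sk, LinearMap.sum_apply]
  exact Finset.sum_congr rfl fun i _ => rfl

theorem dr_sum {ι : Type} (s : Finset ι) {X : ι → Module.End F (Alb a b c)}
    (h : ∀ j ∈ s, Dr (X j)) : Dr (∑ j ∈ s, X j) := by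
  classical
  induction s using Finset.induction_on with
  | empty =>
    intro x
    rw [Finset.sum_empty, LinearMap.zero_apply, tf_zero_right]
  | insert i s hi ih =>
    rw [Finset.sum_insert hi]
    exact (h i (Finset.mem_insert_self i s)).add
      (ih fun j hj => h j (Finset.mem_insert_of_mem hj))

theorem dr_Sk (T : Oct a b c →ₗ[F] Oct a b c) : Dr (Sk T) :=
  dr_sum _ fun _ _ => ((dr_P3 _).brk (dr_M3 _)).smul _

theorem Sk_mem {V : Submodule F (Module.End F (Alb a b c))}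
    (hV : ∀ X ∈ V, ∀ Y ∈ V, X * Y - Y * X ∈ V) (h : ∀ u : Oct a b c, Has V u)
    (T : Oct a b c →ₗ[F] Oct a b c) : Sk T ∈ V :=
  V.sum_mem fun i _ => V.smul_mem _ (hV _ (h _).2.2.1 _ (h _).2.2.2.2.2)

theorem kl_Sk {T : Oct a b c →ₗ[F] Oct a b c} (hT : ∀ u v, bil u (T v) + bil v (T u) = 0) :
    Kl (Sk T) := by
  have h2 : (2 : F) ≠ 0 := NeZero.ne 2
  have h1 : ∀ u, bil (T u) u = 0 := by
    intro u
    have h := hT u u
    rw [← two_mul] at h
    rw [bil_comm]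
    exact (mul_eq_zero.1 h).resolve_left h2
  refine ⟨?_, ?_, ?_⟩ <;> rw [Sk_apply] <;> refine Finset.sum_eq_zero fun i _ => ?_ <;>
    rw [brk_P3_M3, star_star, h1]
  · have h3 : (⟨0 * (Alb.e1 : Alb a b c).d1, -(0 * (Alb.e1 : Alb a b c).d2), 0,
        -(star (fb a b c i) * (T (fb a b c i) * (Alb.e1 : Alb a b c).x1)),
        (Alb.e1 : Alb a b c).x2 * fb a b c i * star (T (fb a b c i)),
        bil (fb a b c i) (Alb.e1 : Alb a b c).x3 • T (fb a b c i) -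
          bil (T (fb a b c i)) (Alb.e1 : Alb a b c).x3 • fb a b c i⟩ : Alb a b c) = 0 := by
      apply Alb.ext <;> simp [Alb.e1]
    rw [h3, smul_zero]
  · have h3 : (⟨0 * (Alb.e2 : Alb a b c).d1, -(0 * (Alb.e2 : Alb a b c).d2), 0,
        -(star (fb a b c i) * (T (fb a b c i) * (Alb.e2 : Alb a b c).x1)),
        (Alb.e2 : Alb a b c).x2 * fb a b c i * star (T (fb a b c i)),
        bil (fb a b c i) (Alb.e2 : Alb a b c).x3 • T (fb a b c i) -
          bil (T (fb a b c i)) (Alb.e2 : Alb a b c).x3 • fb a b c i⟩ : Alb a b c) = 0 := by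
      apply Alb.ext <;> simp [Alb.e2]
    rw [h3, smul_zero]
  · have h3 : (⟨0 * (Alb.e3 : Alb a b c).d1, -(0 * (Alb.e3 : Alb a b c).d2), 0,
        -(star (fb a b c i) * (T (fb a b c i) * (Alb.e3 : Alb a b c).x1)),
        (Alb.e3 : Alb a b c).x2 * fb a b c i * star (T (fb a b c i)),
        bil (fb a b c i) (Alb.e3 : Alb a b c).x3 • T (fb a b c i) -
          bil (T (fb a b c i)) (Alb.e3 : Alb a b c).x3 • fb a b c i⟩ : Alb a b c) = 0 := by
      apply Alb.ext <;> simp [Alb.e3]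
    rw [h3, smul_zero]

/-- `x3` as a linear map. -/
def px3 (a b c : Fˣ) : Alb a b c →ₗ[F] Oct a b c where
  toFun x := x.x3
  map_add' _ _ := rfl
  map_smul' _ _ := rfl

theorem Sk_o3 {T : Oct a b c →ₗ[F] Oct a b c} (hT : ∀ u v, bil u (T v) + bil v (T u) = 0)
    (w : Oct a b c) : (Sk T (o3 w)).x3 = T w := by
  have h : ∀ y : Alb a b c, y.x3 = px3 a b c y := fun _ => rfl
  rw [skew_expand hT w, Sk_apply, h, map_sum]
  refine Finset.sum_congr rfl fun i _ => ?_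
  rw [map_smul, brk_P3_M3, star_star]
  rfl

/-- A derivation which kills the diagonal idempotents is a sum of brackets. -/
theorem eq_Sk {X : Module.End F (Alb a b c)} (hX : Dr X) (hk : Kl X) : X = Sk (T3 X) := by
  have hT : ∀ u v, bil u (T3 X v) + bil v (T3 X u) = 0 := hX.skew3 hk
  obtain ⟨k1, k2, k3⟩ := hk
  obtain ⟨l1, l2, l3⟩ := kl_Sk hT
  refine sub_eq_zero.1 ((hX.sub (dr_Sk _)).eq_zero ⟨?_, ?_, ?_⟩ fun w => ?_)
  · rw [LinearMap.sub_apply, k1, l1, sub_zero]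
  · rw [LinearMap.sub_apply, k2, l2, sub_zero]
  · rw [LinearMap.sub_apply, k3, l3, sub_zero]
  · rw [LinearMap.sub_apply, x3_sub, Sk_o3 hT]
    exact sub_self _

/-- The correction at the diagonal idempotents. -/
def Rd (y1 y2 y3 : Alb a b c) : Module.End F (Alb a b c) :=
  P3 y2.x3 + M3 (star y1.x3) + P1 y3.x1 + M1 (star y2.x1) + P2 y1.x2 + M2 (star y3.x2) +
    (y1.d1 / 2) • (P3 1 * M3 1 - M3 1 * P3 1) - (y3.d3 / 2) • (P1 1 * M1 1 - M1 1 * P1 1)

theorem Rd_apply (y1 y2 y3 x : Alb a b c) : Rd y1 y2 y3 x =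
    P3 y2.x3 x + M3 (star y1.x3) x + P1 y3.x1 x + M1 (star y2.x1) x + P2 y1.x2 x +
      M2 (star y3.x2) x + (y1.d1 / 2) • ((P3 1 * M3 1 - M3 1 * P3 1 : Module.End F (Alb a b c)) x) -
      (y3.d3 / 2) • ((P1 1 * M1 1 - M1 1 * P1 1 : Module.End F (Alb a b c)) x) := rfl

theorem bil_one_one : bil (1 : Oct a b c) 1 = 2 := by rw [bil_self, Oct.norm_one, mul_one]

theorem Rd_e1 (y1 y2 y3 : Alb a b c) (h1 : y1.d2 = 0) (h3 : y1.d3 = 0) (h4 : y1.x1 = 0) :
    Rd y1 y2 y3 e1 = y1 := by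
  have h2 : (2 : F) ≠ 0 := NeZero.ne 2
  rw [Rd_apply, brk_P3_M3, brk_P1_M1, P1_apply, P2_apply, P3_apply, M1_apply, M2_apply, M3_apply]
  apply Alb.ext <;> simp [Alb.e1, bil_one_one, h1, h3, h4, h2]

theorem Rd_e2 (y1 y2 y3 : Alb a b c) (h1 : y2.d1 = 0) (h3 : y2.d3 = 0) (h4 : y2.x2 = 0)
    (hs : y1.d1 + y2.d2 + y3.d3 = 0) : Rd y1 y2 y3 e2 = y2 := by
  have h2 : (2 : F) ≠ 0 := NeZero.ne 2
  rw [Rd_apply, brk_P3_M3, brk_P1_M1, P1_apply, P2_apply, P3_apply, M1_apply, M2_apply, M3_apply]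
  apply Alb.ext <;> simp [Alb.e2, bil_one_one, h1, h3, h4, h2]
  linear_combination -hs

theorem Rd_e3 (y1 y2 y3 : Alb a b c) (h1 : y3.d1 = 0) (h3 : y3.d2 = 0) (h4 : y3.x3 = 0) :
    Rd y1 y2 y3 e3 = y3 := by
  have h2 : (2 : F) ≠ 0 := NeZero.ne 2
  rw [Rd_apply, brk_P3_M3, brk_P1_M1, P1_apply, P2_apply, P3_apply, M1_apply, M2_apply, M3_apply]
  apply Alb.ext <;> simp [Alb.e3, bil_one_one, h1, h3, h4, h2]

/-- **The derivations of the cubic norm** are in the Lie algebra generated by the root operators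
of the pure octonions. -/
theorem star_main {V : Submodule F (Module.End F (Alb a b c))}
    (hV : ∀ X ∈ V, ∀ Y ∈ V, X * Y - Y * X ∈ V) (hq : ∀ q : Oct a b c, bil q 1 = 0 → Has V q)
    {X : Module.End F (Alb a b c)} (hX : ∀ x, tf (adj x) (X x) = 0) : X ∈ V := by
  have h := has_all hV hq
  have hX' : Dr X := hX
  set A : Module.End F (Alb a b c) := Rd (X e1) (X e2) (X e3) with hA
  have hAV : A ∈ V := by
    refine V.sub_mem (V.add_mem (V.add_mem (V.add_mem (V.add_mem (V.add_mem (V.add_mem ?_ ?_) ?_)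
      ?_) ?_) ?_) (V.smul_mem _ ?_)) (V.smul_mem _ ?_)
    · exact (h _).2.2.1
    · exact (h _).2.2.2.2.2
    · exact (h _).1
    · exact (h _).2.2.2.1
    · exact (h _).2.1
    · exact (h _).2.2.2.2.1
    · exact hV _ (h _).2.2.1 _ (h _).2.2.2.2.2
    · exact hV _ (h _).1 _ (h _).2.2.2.1
  have hAD : Dr A := by
    refine Dr.sub (Dr.add (Dr.add (Dr.add (Dr.add (Dr.add (Dr.add ?_ ?_) ?_)
      ?_) ?_) ?_) (Dr.smul _ ?_)) (Dr.smul _ ?_)
    · exact dr_P3 _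
    · exact dr_M3 _
    · exact dr_P1 _
    · exact dr_M1 _
    · exact dr_P2 _
    · exact dr_M2 _
    · exact (dr_P3 _).brk (dr_M3 _)
    · exact (dr_P1 _).brk (dr_M1 _)
  obtain ⟨p1, p2, p3⟩ := hX'.at1
  obtain ⟨q1, q2, q3⟩ := hX'.at2
  obtain ⟨r1, r2, r3⟩ := hX'.at3
  have hs := hX'.sum
  have hK : Kl (X - A) := by
    refine ⟨?_, ?_, ?_⟩ <;> rw [LinearMap.sub_apply, hA]
    · rw [Rd_e1 _ _ _ p1 p2 p3, sub_self]
    · rw [Rd_e2 _ _ _ q1 q2 q3 hs, sub_self]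
    · rw [Rd_e3 _ _ _ r1 r2 r3, sub_self]
  have h3 := eq_Sk (hX'.sub hAD) hK
  have h4 : X = Sk (T3 (X - A)) + A := by rw [← h3, sub_add_cancel]
  rw [h4]
  exact V.add_mem (Sk_mem hV h _) hAV

end Vale.Agent.P011.H327.Star
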