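import Vale.Agent.P011.E6.Ids

/-!
# The Lie algebra of the cubic norm: the root operators

`P1, P2, P3` are the derivatives of `x ↦ (1 + u Eᵢⱼ) x (1 + u Eᵢⱼ)*` for `ij = 23, 31, 12`, and
`M1, M2, M3` for `ij = 32, 13, 21`.
-/

open Vale.Agent.P011.MPQ Vale.Agent.P011.D4 Vale.Agent.P011.D4.Oct

set_option linter.unusedSectionVars false
set_option linter.unusedSimpArgs false

namespace Vale.Agent.P011.H327.Star

open Vale.Agent.P011.E6 Vale.Agent.P011.E6.Alb

variable {F : Type} [Field F] {a b c : Fˣ}

/-- `E₂₃(u)` -/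
def P1 (u : Oct a b c) : Module.End F (Alb a b c) where
  toFun x := ⟨0, bil u x.x1, 0, x.d3 • u, 0, star (u * x.x2)⟩
  map_add' x y := by
    ext1 <;> simp [bil_add_right, add_smul, mul_add, star_add]
  map_smul' t x := by
    ext1 <;> simp [bil_smul_right, mul_smul, mul_smul_oct, star_smul_oct]

/-- `E₃₁(u)` -/
def P2 (u : Oct a b c) : Module.End F (Alb a b c) where
  toFun x := ⟨0, 0, bil u x.x2, star (u * x.x3), x.d1 • u, 0⟩
  map_add' x y := by
    ext1 <;> simp [bil_add_right, add_smul, mul_add, star_add]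
  map_smul' t x := by
    ext1 <;> simp [bil_smul_right, mul_smul, mul_smul_oct, star_smul_oct]

/-- `E₁₂(u)` -/
def P3 (u : Oct a b c) : Module.End F (Alb a b c) where
  toFun x := ⟨bil u x.x3, 0, 0, 0, star (u * x.x1), x.d2 • u⟩
  map_add' x y := by
    ext1 <;> simp [bil_add_right, add_smul, mul_add, star_add]
  map_smul' t x := by
    ext1 <;> simp [bil_smul_right, mul_smul, mul_smul_oct, star_smul_oct]

/-- `E₃₂(u)` -/
def M1 (u : Oct a b c) : Module.End F (Alb a b c) where
  toFun x := ⟨0, 0, bil (star u) x.x1, x.d2 • star u, u * star x.x3, 0⟩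
  map_add' x y := by
    ext1 <;> simp [bil_add_right, add_smul, mul_add, star_add]
  map_smul' t x := by
    ext1 <;> simp [bil_smul_right, mul_smul, mul_smul_oct, star_smul_oct]

/-- `E₁₃(u)` -/
def M2 (u : Oct a b c) : Module.End F (Alb a b c) where
  toFun x := ⟨bil (star u) x.x2, 0, 0, 0, x.d3 • star u, u * star x.x1⟩
  map_add' x y := by
    ext1 <;> simp [bil_add_right, add_smul, mul_add, star_add]
  map_smul' t x := by
    ext1 <;> simp [bil_smul_right, mul_smul, mul_smul_oct, star_smul_oct]

/-- `E₂₁(u)` -/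
def M3 (u : Oct a b c) : Module.End F (Alb a b c) where
  toFun x := ⟨0, bil (star u) x.x3, 0, u * star x.x2, 0, x.d1 • star u⟩
  map_add' x y := by
    ext1 <;> simp [bil_add_right, add_smul, mul_add, star_add]
  map_smul' t x := by
    ext1 <;> simp [bil_smul_right, mul_smul, mul_smul_oct, star_smul_oct]

theorem P1_apply (u : Oct a b c) (x : Alb a b c) :
    P1 u x = ⟨0, bil u x.x1, 0, x.d3 • u, 0, star (u * x.x2)⟩ := rfl
theorem P2_apply (u : Oct a b c) (x : Alb a b c) :
    P2 u x = ⟨0, 0, bil u x.x2, star (u * x.x3), x.d1 • u, 0⟩ := rfl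
theorem P3_apply (u : Oct a b c) (x : Alb a b c) :
    P3 u x = ⟨bil u x.x3, 0, 0, 0, star (u * x.x1), x.d2 • u⟩ := rfl
theorem M1_apply (u : Oct a b c) (x : Alb a b c) :
    M1 u x = ⟨0, 0, bil (star u) x.x1, x.d2 • star u, u * star x.x3, 0⟩ := rfl
theorem M2_apply (u : Oct a b c) (x : Alb a b c) :
    M2 u x = ⟨bil (star u) x.x2, 0, 0, 0, x.d3 • star u, u * star x.x1⟩ := rfl
theorem M3_apply (u : Oct a b c) (x : Alb a b c) :
    M3 u x = ⟨0, bil (star u) x.x3, 0, u * star x.x2, 0, x.d1 • star u⟩ := rfl

/-! Linearity in `u`. -/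

theorem P1_lin (s t : F) (u v : Oct a b c) : P1 (s • u + t • v) = s • P1 u + t • P1 v := by
  refine LinearMap.ext fun x => ?_
  apply Alb.ext <;>
    simp only [P1_apply, LinearMap.add_apply, LinearMap.smul_apply, d1_add, d2_add, d3_add,
      x1_add, x2_add, x3_add, d1_smul, d2_smul, d3_smul, x1_smul, x2_smul, x3_smul,
      bil_add_left, bil_smul_left, star_add, star_smul_oct, add_mul, smul_mul_oct, smul_add,
      smul_comm _ s, smul_comm _ t, mul_zero, smul_zero, add_zero]

theorem P2_lin (s t : F) (u v : Oct a b c) : P2 (s • u + t • v) = s • P2 u + t • P2 v := by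
  refine LinearMap.ext fun x => ?_
  apply Alb.ext <;>
    simp only [P2_apply, LinearMap.add_apply, LinearMap.smul_apply, d1_add, d2_add, d3_add,
      x1_add, x2_add, x3_add, d1_smul, d2_smul, d3_smul, x1_smul, x2_smul, x3_smul,
      bil_add_left, bil_smul_left, star_add, star_smul_oct, add_mul, smul_mul_oct, smul_add,
      smul_comm _ s, smul_comm _ t, mul_zero, smul_zero, add_zero]

theorem P3_lin (s t : F) (u v : Oct a b c) : P3 (s • u + t • v) = s • P3 u + t • P3 v := by
  refine LinearMap.ext fun x => ?_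
  apply Alb.ext <;>
    simp only [P3_apply, LinearMap.add_apply, LinearMap.smul_apply, d1_add, d2_add, d3_add,
      x1_add, x2_add, x3_add, d1_smul, d2_smul, d3_smul, x1_smul, x2_smul, x3_smul,
      bil_add_left, bil_smul_left, star_add, star_smul_oct, add_mul, smul_mul_oct, smul_add,
      smul_comm _ s, smul_comm _ t, mul_zero, smul_zero, add_zero]

theorem M1_lin (s t : F) (u v : Oct a b c) : M1 (s • u + t • v) = s • M1 u + t • M1 v := by
  refine LinearMap.ext fun x => ?_
  apply Alb.ext <;>
    simp only [M1_apply, LinearMap.add_apply, LinearMap.smul_apply, d1_add, d2_add, d3_add,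
      x1_add, x2_add, x3_add, d1_smul, d2_smul, d3_smul, x1_smul, x2_smul, x3_smul,
      bil_add_left, bil_smul_left, star_add, star_smul_oct, add_mul, smul_mul_oct, smul_add,
      smul_comm _ s, smul_comm _ t, mul_zero, smul_zero, add_zero]

theorem M2_lin (s t : F) (u v : Oct a b c) : M2 (s • u + t • v) = s • M2 u + t • M2 v := by
  refine LinearMap.ext fun x => ?_
  apply Alb.ext <;>
    simp only [M2_apply, LinearMap.add_apply, LinearMap.smul_apply, d1_add, d2_add, d3_add,
      x1_add, x2_add, x3_add, d1_smul, d2_smul, d3_smul, x1_smul, x2_smul, x3_smul,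
      bil_add_left, bil_smul_left, star_add, star_smul_oct, add_mul, smul_mul_oct, smul_add,
      smul_comm _ s, smul_comm _ t, mul_zero, smul_zero, add_zero]

theorem M3_lin (s t : F) (u v : Oct a b c) : M3 (s • u + t • v) = s • M3 u + t • M3 v := by
  refine LinearMap.ext fun x => ?_
  apply Alb.ext <;>
    simp only [M3_apply, LinearMap.add_apply, LinearMap.smul_apply, d1_add, d2_add, d3_add,
      x1_add, x2_add, x3_add, d1_smul, d2_smul, d3_smul, x1_smul, x2_smul, x3_smul,
      bil_add_left, bil_smul_left, star_add, star_smul_oct, add_mul, smul_mul_oct, smul_add,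
      smul_comm _ s, smul_comm _ t, mul_zero, smul_zero, add_zero]

/-- `X` is a derivation of the cubic norm. -/
def Dr (X : Module.End F (Alb a b c)) : Prop := ∀ x, tf (adj x) (X x) = 0

theorem Dr.pol {X : Module.End F (Alb a b c)} (h : Dr X) (x y z : Alb a b c) :
    tf (cross x y) (X z) + tf (cross y z) (X x) + tf (cross z x) (X y) = 0 := by
  have h1 := h (x + y + z)
  have h2 := h (x + y)
  have h3 := h (y + z)
  have h4 := h (z + x)
  have h5 := h x
  have h6 := h y
  have h7 := h z
  simp only [adj_add, map_add, cross_add_left, tf_add_left, tf_add_right] at h1 h2 h3 h4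
  rw [cross_comm x z] at h1
  linear_combination h1 - h2 - h3 - h4 + h5 + h6 + h7

theorem Dr.add {X Y : Module.End F (Alb a b c)} (hX : Dr X) (hY : Dr Y) : Dr (X + Y) := by
  intro x
  rw [LinearMap.add_apply, tf_add_right, hX, hY, add_zero]

theorem Dr.smul {X : Module.End F (Alb a b c)} (t : F) (hX : Dr X) : Dr (t • X) := by
  intro x
  rw [LinearMap.smul_apply, tf_smul_right, hX, mul_zero]

theorem Dr.sub {X Y : Module.End F (Alb a b c)} (hX : Dr X) (hY : Dr Y) : Dr (X - Y) := by
  intro x
  rw [LinearMap.sub_apply, tf_sub_right, hX, hY, sub_zero]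

theorem dr_P3 (u : Oct a b c) : Dr (P3 u) := by
  intro x
  simp only [tf, adj, P3_apply, mul_zero, add_zero, bil_zero_right, bil_sub_left,
    bil_smul_left, bil_smul_right, bil_star_star]
  have h1 : bil (x.x3 * x.x1) (u * x.x1) = norm x.x1 * bil x.x3 u := bil_mul_mul_right _ _ _
  have h2 : bil (star (x.x1 * x.x2)) u = bil x.x2 (star (u * x.x1)) := by
    rw [tri3, tri2']
  rw [h1, bil_comm u x.x3]
  linear_combination x.d2 * h2

theorem dr_P1 (u : Oct a b c) : Dr (P1 u) := by
  intro x
  simp only [tf, adj, P1_apply, mul_zero, add_zero, zero_add, bil_zero_right, bil_sub_left,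
    bil_smul_left, bil_smul_right, bil_star_star]
  have h1 : bil (x.x1 * x.x2) (u * x.x2) = norm x.x2 * bil x.x1 u := bil_mul_mul_right _ _ _
  have h2 : bil (star (x.x2 * x.x3)) u = bil x.x3 (star (u * x.x2)) := by
    rw [tri3, tri2']
  rw [h1, bil_comm u x.x1]
  linear_combination x.d3 * h2

theorem dr_P2 (u : Oct a b c) : Dr (P2 u) := by
  intro x
  simp only [tf, adj, P2_apply, mul_zero, add_zero, zero_add, bil_zero_right, bil_sub_left,
    bil_smul_left, bil_smul_right, bil_star_star]
  have h1 : bil (x.x2 * x.x3) (u * x.x3) = norm x.x3 * bil x.x2 u := bil_mul_mul_right _ _ _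
  have h2 : bil (star (x.x3 * x.x1)) u = bil x.x1 (star (u * x.x3)) := by
    rw [tri3, tri2']
  rw [h1, bil_comm u x.x2]
  linear_combination x.d1 * h2

theorem dr_M3 (u : Oct a b c) : Dr (M3 u) := by
  intro x
  simp only [tf, adj, M3_apply, mul_zero, add_zero, zero_add, bil_zero_right, bil_sub_left,
    bil_smul_left, bil_smul_right]
  have h1 : bil (star (x.x2 * x.x3)) (u * star x.x2) = norm x.x2 * bil (star x.x3) u := by
    rw [star_mul, bil_mul_mul_right, Oct.norm_star]
  have h2 : bil (star (x.x1 * x.x2)) (star u) = bil x.x1 (u * star x.x2) := by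
    rw [bil_star_star, bil_mul_left']
  rw [h1, h2, bil_star_left x.x3, bil_comm x.x3]
  ring

theorem dr_M1 (u : Oct a b c) : Dr (M1 u) := by
  intro x
  simp only [tf, adj, M1_apply, mul_zero, add_zero, zero_add, bil_zero_right, bil_sub_left,
    bil_smul_left, bil_smul_right]
  have h1 : bil (star (x.x3 * x.x1)) (u * star x.x3) = norm x.x3 * bil (star x.x1) u := by
    rw [star_mul, bil_mul_mul_right, Oct.norm_star]
  have h2 : bil (star (x.x2 * x.x3)) (star u) = bil x.x2 (u * star x.x3) := by
    rw [bil_star_star, bil_mul_left']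
  rw [h1, h2, bil_star_left x.x1, bil_comm x.x1]
  ring

theorem dr_M2 (u : Oct a b c) : Dr (M2 u) := by
  intro x
  simp only [tf, adj, M2_apply, mul_zero, add_zero, bil_zero_right, bil_sub_left,
    bil_smul_left, bil_smul_right]
  have h1 : bil (star (x.x1 * x.x2)) (u * star x.x1) = norm x.x1 * bil (star x.x2) u := by
    rw [star_mul, bil_mul_mul_right, Oct.norm_star]
  have h2 : bil (star (x.x3 * x.x1)) (star u) = bil x.x3 (u * star x.x1) := by
    rw [bil_star_star, bil_mul_left']
  rw [h1, h2, bil_star_left x.x2, bil_comm x.x2]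
  ring

theorem Dr.brk [NeZero (2 : F)] {X Y : Module.End F (Alb a b c)} (hX : Dr X) (hY : Dr Y) :
    Dr (X * Y - Y * X) := by
  intro x
  have h1 := hX.pol x x (Y x)
  have h2 := hY.pol x x (X x)
  rw [cross_comm (Y x) x, Alb.cross_self, tf_smul_left, tf_cross] at h1
  rw [cross_comm (X x) x, Alb.cross_self, tf_smul_left, tf_cross, cross_comm (X x)] at h2
  rw [LinearMap.sub_apply, Module.End.mul_apply, Module.End.mul_apply, tf_sub_right]
  have h3 : (2 : F) * (tf (adj x) (X (Y x)) - tf (adj x) (Y (X x))) = 0 := by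
    linear_combination h1 - h2
  exact (mul_eq_zero.1 h3).resolve_left (NeZero.ne 2)

/-! Brackets. -/

theorem brk_P3_P1 (u v : Oct a b c) : P3 u * P1 v - P1 v * P3 u = M2 (u * v) := by
  refine LinearMap.ext fun x => ?_
  rw [LinearMap.sub_apply, Module.End.mul_apply, Module.End.mul_apply]
  have h1 := mul_mul_star_add x.x1 u v
  have h2 : bil u (star (v * x.x2)) = bil (star (u * v)) x.x2 := by
    rw [bil_star_left, bil_mul_left' u v, star_mul]
  have h3 : bil v x.x1 • u - star (v * star (u * x.x1)) = u * v * star x.x1 := by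
    rw [star_mul, star_star, bil_comm v, ← h1, add_sub_cancel_left]
  apply Alb.ext <;> simp only [P1_apply, P3_apply, M2_apply, d1_sub, d2_sub, d3_sub, x1_sub,
      x2_sub, x3_sub, bil_zero_right, sub_zero, zero_sub, sub_self, mul_zero, star_zero,
      zero_smul, mul_smul_oct, star_smul_oct, smul_zero, neg_zero, h2, h3]

theorem brk_P1_P2 (u v : Oct a b c) : P1 u * P2 v - P2 v * P1 u = M3 (u * v) := by
  refine LinearMap.ext fun x => ?_
  rw [LinearMap.sub_apply, Module.End.mul_apply, Module.End.mul_apply]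
  have h1 := mul_mul_star_add x.x2 u v
  have h2 : bil u (star (v * x.x3)) = bil (star (u * v)) x.x3 := by
    rw [bil_star_left, bil_mul_left' u v, star_mul]
  have h3 : bil v x.x2 • u - star (v * star (u * x.x2)) = u * v * star x.x2 := by
    rw [star_mul, star_star, bil_comm v, ← h1, add_sub_cancel_left]
  apply Alb.ext <;> simp only [P2_apply, P1_apply, M3_apply, d1_sub, d2_sub, d3_sub, x1_sub,
      x2_sub, x3_sub, bil_zero_right, sub_zero, zero_sub, sub_self, mul_zero, star_zero,
      zero_smul, mul_smul_oct, star_smul_oct, smul_zero, neg_zero, h2, h3]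

theorem brk_P2_P3 (u v : Oct a b c) : P2 u * P3 v - P3 v * P2 u = M1 (u * v) := by
  refine LinearMap.ext fun x => ?_
  rw [LinearMap.sub_apply, Module.End.mul_apply, Module.End.mul_apply]
  have h1 := mul_mul_star_add x.x3 u v
  have h2 : bil u (star (v * x.x1)) = bil (star (u * v)) x.x1 := by
    rw [bil_star_left, bil_mul_left' u v, star_mul]
  have h3 : bil v x.x3 • u - star (v * star (u * x.x3)) = u * v * star x.x3 := by
    rw [star_mul, star_star, bil_comm v, ← h1, add_sub_cancel_left]
  apply Alb.ext <;> simp only [P3_apply, P2_apply, M1_apply, d1_sub, d2_sub, d3_sub, x1_sub,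
      x2_sub, x3_sub, bil_zero_right, sub_zero, zero_sub, sub_self, mul_zero, star_zero,
      zero_smul, mul_smul_oct, star_smul_oct, smul_zero, neg_zero, h2, h3]

theorem brk_M1_M3 (u v : Oct a b c) : M1 u * M3 v - M3 v * M1 u = P2 (u * v) := by
  refine LinearMap.ext fun x => ?_
  rw [LinearMap.sub_apply, Module.End.mul_apply, Module.End.mul_apply]
  have h1 := star_mul_mul_add (star v) (star u) x.x3
  have h2 : bil (star u) (v * star x.x2) = bil (u * v) x.x2 := by
    rw [bil_comm, bil_mul_left', star_star, bil_mul_left u v]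
  have h3 : bil (star v) x.x3 • star u - v * star (u * star x.x3) = star (u * v * x.x3) := by
    rw [star_mul u, star_star, star_mul (u * v), star_mul u v, ← h1, star_star,
      add_sub_cancel_left]
  apply Alb.ext <;> simp only [M3_apply, M1_apply, P2_apply, d1_sub, d2_sub, d3_sub, x1_sub,
      x2_sub, x3_sub, bil_zero_right, sub_zero, zero_sub, sub_self, mul_zero, star_zero,
      zero_smul, mul_smul_oct, star_smul_oct, smul_zero, neg_zero, star_star, h2, h3]

theorem brk_M3_M2 (u v : Oct a b c) : M3 u * M2 v - M2 v * M3 u = P1 (u * v) := by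
  refine LinearMap.ext fun x => ?_
  rw [LinearMap.sub_apply, Module.End.mul_apply, Module.End.mul_apply]
  have h1 := star_mul_mul_add (star v) (star u) x.x2
  have h2 : bil (star u) (v * star x.x1) = bil (u * v) x.x1 := by
    rw [bil_comm, bil_mul_left', star_star, bil_mul_left u v]
  have h3 : bil (star v) x.x2 • star u - v * star (u * star x.x2) = star (u * v * x.x2) := by
    rw [star_mul u, star_star, star_mul (u * v), star_mul u v, ← h1, star_star,
      add_sub_cancel_left]
  apply Alb.ext <;> simp only [M2_apply, M3_apply, P1_apply, d1_sub, d2_sub, d3_sub, x1_sub,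
      x2_sub, x3_sub, bil_zero_right, sub_zero, zero_sub, sub_self, mul_zero, star_zero,
      zero_smul, mul_smul_oct, star_smul_oct, smul_zero, neg_zero, star_star, h2, h3]

theorem brk_M2_M1 (u v : Oct a b c) : M2 u * M1 v - M1 v * M2 u = P3 (u * v) := by
  refine LinearMap.ext fun x => ?_
  rw [LinearMap.sub_apply, Module.End.mul_apply, Module.End.mul_apply]
  have h1 := star_mul_mul_add (star v) (star u) x.x1
  have h2 : bil (star u) (v * star x.x3) = bil (u * v) x.x3 := by
    rw [bil_comm, bil_mul_left', star_star, bil_mul_left u v]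
  have h3 : bil (star v) x.x1 • star u - v * star (u * star x.x1) = star (u * v * x.x1) := by
    rw [star_mul u, star_star, star_mul (u * v), star_mul u v, ← h1, star_star,
      add_sub_cancel_left]
  apply Alb.ext <;> simp only [M1_apply, M2_apply, P3_apply, d1_sub, d2_sub, d3_sub, x1_sub,
      x2_sub, x3_sub, bil_zero_right, sub_zero, zero_sub, sub_self, mul_zero, star_zero,
      zero_smul, mul_smul_oct, star_smul_oct, smul_zero, neg_zero, star_star, h2, h3]

theorem brk_P3_M3 (u v : Oct a b c) (x : Alb a b c) : (P3 u * M3 v - M3 v * P3 u) x =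
    ⟨bil u (star v) * x.d1, -(bil u (star v) * x.d2), 0, -(v * (u * x.x1)),
      (x.x2 * star v) * star u, bil (star v) x.x3 • u - bil u x.x3 • star v⟩ := by
  rw [LinearMap.sub_apply, Module.End.mul_apply, Module.End.mul_apply]
  apply Alb.ext <;> simp only [M3_apply, P3_apply, d1_sub, d2_sub, d3_sub, x1_sub,
      x2_sub, x3_sub, bil_zero_right, sub_zero, zero_sub, sub_self, mul_zero, star_zero,
      zero_smul, mul_smul_oct, star_smul_oct, smul_zero, neg_zero, star_star, bil_smul_right,
      star_mul]
  · ring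
  · rw [bil_comm (star v) u]
    ring

theorem brk_P1_M1 (u v : Oct a b c) (x : Alb a b c) : (P1 u * M1 v - M1 v * P1 u) x =
    ⟨0, bil u (star v) * x.d2, -(bil u (star v) * x.d3),
      bil (star v) x.x1 • u - bil u x.x1 • star v, -(v * (u * x.x2)),
      (x.x3 * star v) * star u⟩ := by
  rw [LinearMap.sub_apply, Module.End.mul_apply, Module.End.mul_apply]
  apply Alb.ext <;> simp only [M1_apply, P1_apply, d1_sub, d2_sub, d3_sub, x1_sub,
      x2_sub, x3_sub, bil_zero_right, sub_zero, zero_sub, sub_self, mul_zero, star_zero,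
      zero_smul, mul_smul_oct, star_smul_oct, smul_zero, neg_zero, star_star, bil_smul_right,
      star_mul]
  · ring
  · rw [bil_comm (star v) u]
    ring

end Vale.Agent.P011.H327.Star
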