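import Vale.Agent.P011.H327.Star.Ops

/-!
# The Lie algebra of the cubic norm: reduction
-/

open Vale.Agent.P011.MPQ Vale.Agent.P011.D4 Vale.Agent.P011.D4.Oct

set_option linter.unusedSectionVars false
set_option linter.unusedSimpArgs false

namespace Vale.Agent.P011.H327.Star

open Vale.Agent.P011.E6 Vale.Agent.P011.E6.Alb

variable {F : Type} [Field F] {a b c : Fˣ}

/-- The octonion `w` at `(2,3)`. -/
def o1 (w : Oct a b c) : Alb a b c := ⟨0, 0, 0, w, 0, 0⟩
/-- The octonion `w` at `(3,1)`. -/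
def o2 (w : Oct a b c) : Alb a b c := ⟨0, 0, 0, 0, w, 0⟩
/-- The octonion `w` at `(1,2)`. -/
def o3 (w : Oct a b c) : Alb a b c := ⟨0, 0, 0, 0, 0, w⟩

section V

variable {V : Submodule F (Module.End F (Alb a b c))}

/-- `V` contains the root operators of `u`. -/
def Has (V : Submodule F (Module.End F (Alb a b c))) (u : Oct a b c) : Prop :=
  P1 u ∈ V ∧ P2 u ∈ V ∧ P3 u ∈ V ∧ M1 u ∈ V ∧ M2 u ∈ V ∧ M3 u ∈ V

theorem Has.lin {u v : Oct a b c} (hu : Has V u) (hv : Has V v) (s t : F) :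
    Has V (s • u + t • v) := by
  obtain ⟨h1, h2, h3, h4, h5, h6⟩ := hu
  obtain ⟨k1, k2, k3, k4, k5, k6⟩ := hv
  refine ⟨?_, ?_, ?_, ?_, ?_, ?_⟩
  · rw [P1_lin]; exact V.add_mem (V.smul_mem s h1) (V.smul_mem t k1)
  · rw [P2_lin]; exact V.add_mem (V.smul_mem s h2) (V.smul_mem t k2)
  · rw [P3_lin]; exact V.add_mem (V.smul_mem s h3) (V.smul_mem t k3)
  · rw [M1_lin]; exact V.add_mem (V.smul_mem s h4) (V.smul_mem t k4)
  · rw [M2_lin]; exact V.add_mem (V.smul_mem s h5) (V.smul_mem t k5)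
  · rw [M3_lin]; exact V.add_mem (V.smul_mem s h6) (V.smul_mem t k6)

theorem Has.mul (hV : ∀ X ∈ V, ∀ Y ∈ V, X * Y - Y * X ∈ V) {u v : Oct a b c} (hu : Has V u)
    (hv : Has V v) : Has V (u * v) := by
  obtain ⟨h1, h2, h3, h4, h5, h6⟩ := hu
  obtain ⟨k1, k2, k3, k4, k5, k6⟩ := hv
  refine ⟨?_, ?_, ?_, ?_, ?_, ?_⟩
  · rw [← brk_M3_M2]; exact hV _ h6 _ k5
  · rw [← brk_M1_M3]; exact hV _ h4 _ k6
  · rw [← brk_M2_M1]; exact hV _ h5 _ k4
  · rw [← brk_P2_P3]; exact hV _ h2 _ k3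
  · rw [← brk_P3_P1]; exact hV _ h3 _ k1
  · rw [← brk_P1_P2]; exact hV _ h1 _ k2

/-- From the pure octonions to all octonions. -/
theorem has_all [NeZero (2 : F)] (hV : ∀ X ∈ V, ∀ Y ∈ V, X * Y - Y * X ∈ V)
    (h : ∀ q : Oct a b c, bil q 1 = 0 → Has V q) (u : Oct a b c) : Has V u := by
  have h2 : (2 : F) ≠ 0 := NeZero.ne 2
  have hgi : bil (gi : Oct a b c) 1 = 0 := by simp [bil_eq, gi]
  have h3 : Has V (gi * gi : Oct a b c) := (h gi hgi).mul hV (h gi hgi)
  have h4 : (gi * gi : Oct a b c) = (a : F) • 1 := by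
    apply ext8 <;> simp [gi]
  have h1 : Has V (1 : Oct a b c) := by
    have h5 := h3.lin h3 (a : F)⁻¹ 0
    rw [zero_smul, add_zero, h4, smul_smul, inv_mul_cancel₀ a.ne_zero, one_smul] at h5
    exact h5
  have h6 : bil (u - (bil u 1 / 2) • 1) 1 = 0 := by
    rw [bil_sub_left, bil_smul_left, bil_self, Oct.norm_one]
    field_simp
    ring
  have h7 := h1.lin (h _ h6) (bil u 1 / 2) 1
  rwa [one_smul, add_sub_cancel] at h7

end V

/-! The values at the diagonal idempotents. -/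

section idem

variable [NeZero (2 : F)] {X : Module.End F (Alb a b c)}

theorem Dr.at (hX : Dr X) {e : Alb a b c} (he : adj e = 0) (z : Alb a b c) :
    tf (cross e z) (X e) = 0 := by
  have h := hX.pol e e z
  rw [Alb.cross_self, he, smul_zero, tf_zero_left, zero_add, cross_comm z e, ← two_mul] at h
  exact (mul_eq_zero.1 h).resolve_left (NeZero.ne 2)

theorem adj_e1 : adj (e1 : Alb a b c) = 0 := by ext1 <;> simp [adj, e1]
theorem adj_e2 : adj (e2 : Alb a b c) = 0 := by ext1 <;> simp [adj, e2]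
theorem adj_e3 : adj (e3 : Alb a b c) = 0 := by ext1 <;> simp [adj, e3]

theorem Dr.at1 (hX : Dr X) : (X e1).d2 = 0 ∧ (X e1).d3 = 0 ∧ (X e1).x1 = 0 := by
  refine ⟨?_, ?_, eq_zero_of_bil fun w => ?_⟩
  · simpa [cross, tf, Alb.e1, Alb.e3] using hX.at adj_e1 e3
  · simpa [cross, tf, Alb.e1, Alb.e2] using hX.at adj_e1 e2
  · simpa [cross, tf, Alb.e1, o1, bil_neg_left, bil_comm w] using hX.at adj_e1 (o1 w)

theorem Dr.at2 (hX : Dr X) : (X e2).d1 = 0 ∧ (X e2).d3 = 0 ∧ (X e2).x2 = 0 := by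
  refine ⟨?_, ?_, eq_zero_of_bil fun w => ?_⟩
  · simpa [cross, tf, Alb.e2, Alb.e3] using hX.at adj_e2 e3
  · simpa [cross, tf, Alb.e2, Alb.e1] using hX.at adj_e2 e1
  · simpa [cross, tf, Alb.e2, o2, bil_neg_left, bil_comm w] using hX.at adj_e2 (o2 w)

theorem Dr.at3 (hX : Dr X) : (X e3).d1 = 0 ∧ (X e3).d2 = 0 ∧ (X e3).x3 = 0 := by
  refine ⟨?_, ?_, eq_zero_of_bil fun w => ?_⟩
  · simpa [cross, tf, Alb.e3, Alb.e2] using hX.at adj_e3 e2
  · simpa [cross, tf, Alb.e3, Alb.e1] using hX.at adj_e3 e1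
  · simpa [cross, tf, Alb.e3, o3, bil_neg_left, bil_comm w] using hX.at adj_e3 (o3 w)

theorem Dr.sum (hX : Dr X) : (X e1).d1 + (X e2).d2 + (X e3).d3 = 0 := by
  have h := hX.pol e1 e2 e3
  simp only [cross, tf, Alb.e1, Alb.e2, Alb.e3, mul_zero, zero_mul, mul_one, one_mul, add_zero,
    zero_add, sub_zero, bil_zero_left, bil_zero_right, star_zero, smul_zero, zero_smul] at h
  have h1 : (X Alb.e3).d3 + (X Alb.e1).d1 + (X Alb.e2).d2 = 0 := h
  linear_combination h1

/-- `X` kills the diagonal idempotents. -/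
def Kl (X : Module.End F (Alb a b c)) : Prop := X e1 = 0 ∧ X e2 = 0 ∧ X e3 = 0

theorem Dr.on1 (hX : Dr X) (hk : Kl X) (w : Oct a b c) : X (o1 w) = o1 (X (o1 w)).x1 := by
  obtain ⟨k1, k2, k3⟩ := hk
  have h1 := hX.pol e2 e3 (o1 w)
  have h2 := hX.pol e3 e1 (o1 w)
  have h3 := hX.pol e1 e2 (o1 w)
  have h4 := fun z => hX.pol e2 (o2 z) (o1 w)
  have h5 := fun z => hX.pol e3 (o3 z) (o1 w)
  simp only [k1, k2, k3, tf_zero_right, add_zero] at h1 h2 h3 h4 h5
  simp only [cross, tf, Alb.e1, Alb.e2, Alb.e3, o1, o2, o3, mul_zero, zero_mul, mul_one, one_mul,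
    add_zero, zero_add, sub_zero, zero_sub, bil_zero_left, bil_zero_right, star_zero, smul_zero,
    zero_smul, one_smul, bil_neg_left, neg_zero, neg_eq_zero] at h1 h2 h3 h4 h5
  apply Alb.ext
  · exact h1
  · exact h2
  · exact h3
  · rfl
  · exact eq_zero_of_bil fun z => by rw [bil_comm]; exact h4 z
  · exact eq_zero_of_bil fun z => by rw [bil_comm]; exact h5 z

theorem Dr.on2 (hX : Dr X) (hk : Kl X) (w : Oct a b c) : X (o2 w) = o2 (X (o2 w)).x2 := by
  obtain ⟨k1, k2, k3⟩ := hk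
  have h1 := hX.pol e2 e3 (o2 w)
  have h2 := hX.pol e3 e1 (o2 w)
  have h3 := hX.pol e1 e2 (o2 w)
  have h4 := fun z => hX.pol e1 (o1 z) (o2 w)
  have h5 := fun z => hX.pol e3 (o3 z) (o2 w)
  simp only [k1, k2, k3, tf_zero_right, add_zero] at h1 h2 h3 h4 h5
  simp only [cross, tf, Alb.e1, Alb.e2, Alb.e3, o1, o2, o3, mul_zero, zero_mul, mul_one, one_mul,
    add_zero, zero_add, sub_zero, zero_sub, bil_zero_left, bil_zero_right, star_zero, smul_zero,
    zero_smul, one_smul, bil_neg_left, neg_zero, neg_eq_zero] at h1 h2 h3 h4 h5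
  apply Alb.ext
  · exact h1
  · exact h2
  · exact h3
  · exact eq_zero_of_bil fun z => by rw [bil_comm]; exact h4 z
  · rfl
  · exact eq_zero_of_bil fun z => by rw [bil_comm]; exact h5 z

theorem Dr.on3 (hX : Dr X) (hk : Kl X) (w : Oct a b c) : X (o3 w) = o3 (X (o3 w)).x3 := by
  obtain ⟨k1, k2, k3⟩ := hk
  have h1 := hX.pol e2 e3 (o3 w)
  have h2 := hX.pol e3 e1 (o3 w)
  have h3 := hX.pol e1 e2 (o3 w)
  have h4 := fun z => hX.pol e1 (o1 z) (o3 w)
  have h5 := fun z => hX.pol e2 (o2 z) (o3 w)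
  simp only [k1, k2, k3, tf_zero_right, add_zero] at h1 h2 h3 h4 h5
  simp only [cross, tf, Alb.e1, Alb.e2, Alb.e3, o1, o2, o3, mul_zero, zero_mul, mul_one, one_mul,
    add_zero, zero_add, sub_zero, zero_sub, bil_zero_left, bil_zero_right, star_zero, smul_zero,
    zero_smul, one_smul, bil_neg_left, neg_zero, neg_eq_zero] at h1 h2 h3 h4 h5
  apply Alb.ext
  · exact h1
  · exact h2
  · exact h3
  · exact eq_zero_of_bil fun z => by rw [bil_comm]; exact h4 z
  · exact eq_zero_of_bil fun z => by rw [bil_comm]; exact h5 z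
  · rfl

/-- The components are skew. -/
theorem Dr.skew2 (hX : Dr X) (hk : Kl X) (u v : Oct a b c) :
    bil u (X (o2 v)).x2 + bil v (X (o2 u)).x2 = 0 := by
  obtain ⟨k1, k2, k3⟩ := hk
  have h := hX.pol e2 (o2 u) (o2 v)
  simp only [k1, k2, k3, tf_zero_right, add_zero] at h
  simp only [cross, tf, Alb.e1, Alb.e2, Alb.e3, o1, o2, o3, mul_zero, zero_mul, mul_one, one_mul,
    add_zero, zero_add, sub_zero, zero_sub, bil_zero_left, bil_zero_right, star_zero, smul_zero,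
    zero_smul, one_smul, bil_neg_left, neg_zero, neg_eq_zero] at h
  have h1 : -bil u (X (o2 v)).x2 + -bil v (X (o2 u)).x2 = 0 := h
  linear_combination -h1

theorem Dr.skew3 (hX : Dr X) (hk : Kl X) (u v : Oct a b c) :
    bil u (X (o3 v)).x3 + bil v (X (o3 u)).x3 = 0 := by
  obtain ⟨k1, k2, k3⟩ := hk
  have h := hX.pol e3 (o3 u) (o3 v)
  simp only [k1, k2, k3, tf_zero_right, add_zero] at h
  simp only [cross, tf, Alb.e1, Alb.e2, Alb.e3, o1, o2, o3, mul_zero, zero_mul, mul_one, one_mul,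
    add_zero, zero_add, sub_zero, zero_sub, bil_zero_left, bil_zero_right, star_zero, smul_zero,
    zero_smul, one_smul, bil_neg_left, neg_zero, neg_eq_zero] at h
  have h1 : -bil u (X (o3 v)).x3 + -bil v (X (o3 u)).x3 = 0 := h
  linear_combination -h1

/-- Infinitesimal triality. -/
theorem Dr.tri (hX : Dr X) (u v w : Oct a b c) :
    bil (star (u * v)) (X (o3 w)).x3 + bil (star (v * w)) (X (o1 u)).x1 +
      bil (star (w * u)) (X (o2 v)).x2 = 0 := by
  have h := hX.pol (o1 u) (o2 v) (o3 w)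
  simp only [cross, tf, o1, o2, o3, mul_zero, zero_mul, mul_one, one_mul,
    add_zero, zero_add, sub_zero, zero_sub, bil_zero_left, bil_zero_right, star_zero, smul_zero,
    zero_smul, one_smul, bil_neg_left, neg_zero, neg_eq_zero] at h
  exact h

/-- The middle nucleus. -/
theorem eq_zero_of_nuc {p : Oct a b c} (h : ∀ u v : Oct a b c, (u * p) * v = u * (p * v))
    (hp : bil p 1 = 0) : p = 0 := by
  have h2 : (2 : F) ≠ 0 := NeZero.ne 2
  have ha := a.ne_zero
  have hb := b.ne_zero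
  have hc := c.ne_zero
  have h1 := h gi gl
  have h3 := h gj gl
  have h4 := h gi gj
  have e0 : p.fst.re = 0 := by
    rw [bil_eq] at hp
    simpa [h2] using hp
  have e1 := congrArg (fun z : Oct a b c => z.fst.imJ) h1
  have e2 := congrArg (fun z : Oct a b c => z.fst.imK) h1
  have e3 := congrArg (fun z : Oct a b c => z.snd.imJ) h1
  have e4 := congrArg (fun z : Oct a b c => z.snd.imK) h1
  have e5 := congrArg (fun z : Oct a b c => z.fst.imK) h3
  have e6 := congrArg (fun z : Oct a b c => z.snd.imK) h3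
  have e7 := congrArg (fun z : Oct a b c => z.snd.imK) h4
  simp [gi, gj, gl] at e1 e2 e3 e4 e5 e6 e7
  have hz : ∀ x : F, -x = x → x = 0 := fun x hx => by
    have h5 : (2 : F) * x = 0 := by linear_combination -hx
    exact (mul_eq_zero.1 h5).resolve_left h2
  have f1 := hz _ e1
  have f2 := hz _ e2
  have f3 := hz _ e3.symm
  have f5 := hz _ e5.symm
  simp only [mul_eq_zero, ha, hc, false_or] at f1 f2 f3 f5
  exact ext8 e0 (hz _ e6) (hz _ e4.symm) f3 (hz _ e7) f5 f2 f1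

/-- A derivation which kills the diagonal idempotents and the entries at `(1,2)` is zero. -/
theorem Dr.eq_zero (hX : Dr X) (hk : Kl X) (h3 : ∀ w, (X (o3 w)).x3 = 0) : X = 0 := by
  have hY : ∀ u v : Oct a b c, (X (o1 u)).x1 * v + u * (X (o2 v)).x2 = 0 := by
    intro u v
    refine eq_zero_of_bil fun w => ?_
    have h := hX.tri u v (star w)
    rw [h3, bil_zero_right, zero_add, tri1, tri2] at h
    rw [bil_add_left]
    rw [bil_mul_left' (_ * v), bil_mul_left' (u * _), star_star, one_mul] at h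
    exact h
  set p := (X (o2 1)).x2 with hp
  have h1 : ∀ u, (X (o1 u)).x1 = -(u * p) := by
    intro u
    have h := hY u 1
    rw [mul_one] at h
    exact eq_neg_of_add_eq_zero_left h
  have h2 : ∀ v, (X (o2 v)).x2 = p * v := by
    intro v
    have h := hY 1 v
    rw [h1, one_mul, one_mul, neg_mul] at h
    rw [← sub_eq_zero, sub_eq_neg_add]
    exact h
  have hp0 : p = 0 := by
    refine eq_zero_of_nuc (fun u v => ?_) ?_
    · have h := hY u v
      rw [h1, h2, neg_mul, neg_add_eq_zero] at h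
      exact h
    · have h := hX.skew2 hk 1 1
      rw [← hp, ← two_mul] at h
      rw [bil_comm]
      exact (mul_eq_zero.1 h).resolve_left (NeZero.ne 2)
  obtain ⟨k1, k2, k3⟩ := hk
  refine LinearMap.ext fun x => ?_
  have hx : x = x.d1 • e1 + x.d2 • e2 + x.d3 • e3 + o1 x.x1 + o2 x.x2 + o3 x.x3 := by
    apply Alb.ext <;> simp [Alb.e1, Alb.e2, Alb.e3, o1, o2, o3]
  rw [hx, map_add, map_add, map_add, map_add, map_add, map_smul, map_smul, map_smul, k1, k2, k3,
    hX.on1 ⟨k1, k2, k3⟩, hX.on2 ⟨k1, k2, k3⟩, hX.on3 ⟨k1, k2, k3⟩, h1, h2, h3, hp0, mul_zero,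
    zero_mul, neg_zero]
  apply Alb.ext <;> simp [o1, o2, o3]

end idem

end Vale.Agent.P011.H327.Star
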